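import Mathlib

/-!
The switch chain on simple graphs with prescribed degrees.
-/

open scoped Classical

namespace Vale.Agent.P335

variable {n : ℕ}

/-- The set `Ω_d` of simple graphs on `Fin n` in which vertex `v` has degree `d v`. -/
def Omega (d : Fin n → ℕ) : Type :=
  {G : SimpleGraph (Fin n) // ∀ v, (G.neighborSet v).ncard = d v}

noncomputable instance (d : Fin n → ℕ) : Fintype (Omega d) :=
  Fintype.ofInjective (fun G => G.1) Subtype.coe_injective

/-- The graph got from `G` by the ordered quadruple `(a, b, c, e)` of distinct vertices: if `ab`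
and `ce` are edges and `ac`, `be` are not, delete `ab`, `ce` and insert `ac`, `be`; otherwise
`G` itself. A uniformly chosen ordered quadruple of distinct vertices gives the same move
distribution as a uniform 4-set `S` followed by a uniform ordered pair of distinct perfect
matchings of `S`, since each such `(S, F, F')` comes from exactly four quadruples. -/
noncomputable def move (G : SimpleGraph (Fin n)) (x : Fin 4 ↪ Fin n) : SimpleGraph (Fin n) :=
  if G.Adj (x 0) (x 1) ∧ G.Adj (x 2) (x 3) ∧ ¬ G.Adj (x 0) (x 2) ∧ ¬ G.Adj (x 1) (x 3) then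
    SimpleGraph.fromEdgeSet
      ((G.edgeSet \ {s(x 0, x 1), s(x 2, x 3)}) ∪ {s(x 0, x 2), s(x 1, x 3)})
  else G

/-- The transition matrix of the switch chain: with probability `1/2` stay put, otherwise apply
`move` with a uniform ordered quadruple of distinct vertices. -/
noncomputable def P (d : Fin n → ℕ) : Matrix (Omega d) (Omega d) ℝ :=
  Matrix.of fun G G' => (if G = G' then (1 / 2 : ℝ) else 0) +
    (1 / 2) * ((Finset.univ.filter fun x : Fin 4 ↪ Fin n => move G.1 x = G'.1).card : ℝ) /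
      (Fintype.card (Fin 4 ↪ Fin n) : ℝ)

/-- Total variation distance between `P^t (G, ·)` and the uniform distribution on `Ω_d`. -/
noncomputable def tv (d : Fin n → ℕ) (t : ℕ) (G : Omega d) : ℝ :=
  (1 / 2) * ∑ H : Omega d, |(P d ^ t) G H - 1 / (Fintype.card (Omega d) : ℝ)|

/-- The chain has mixed by time `t`. -/
def MixedBy (d : Fin n → ℕ) (t : ℕ) : Prop :=
  ∀ G : Omega d, tv d t G ≤ 1 / 4

/-- The Dirichlet form of the switch chain for the uniform distribution, times `2 |Ω_d|`. -/
noncomputable def energy (d : Fin n → ℕ) (f : Omega d → ℝ) : ℝ :=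
  ∑ G : Omega d, ∑ H : Omega d, P d G H * (f G - f H) ^ 2

/-- The number of vertex pairs on which two graphs differ (each counted twice). -/
noncomputable def dist (G H : SimpleGraph (Fin n)) : ℕ :=
  (Finset.univ.filter fun p : Fin n × Fin n => ¬(G.Adj p.1 p.2 ↔ H.Adj p.1 p.2)).card

/-- Poincaré inequality with constant `K`:
`∑_{G,H} (f G - f H)^2 ≤ K |Ω_d| ∑_{G,H} P(G,H) (f G - f H)^2`. -/
def Poincare (d : Fin n → ℕ) (K : ℝ) : Prop :=
  ∀ f : Omega d → ℝ, ∑ G : Omega d, ∑ H : Omega d, (f G - f H) ^ 2 ≤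
    K * (Fintype.card (Omega d) : ℝ) * energy d f

/-- Module A: a polynomial Poincaré constant gives a polynomial mixing time. -/
def MixingFromPoincare : Prop :=
  ∀ (C : ℝ) (k : ℕ), (∀ n : ℕ, 4 ≤ n → ∀ d : Fin n → ℕ, Poincare d (C * (n : ℝ) ^ k)) →
    ∃ (C' : ℝ) (k' : ℕ), ∀ n : ℕ, 4 ≤ n → ∀ d : Fin n → ℕ,
      ∃ t : ℕ, (t : ℝ) ≤ C' * (n : ℝ) ^ k' ∧ MixedBy d t

/-- Module B: jumps between members of `Ω_d` that differ in at most `D` places are dominated,
up to a polynomial factor, by switches. -/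
def JumpsFromSwitches : Prop :=
  ∀ D : ℕ, ∃ (C : ℝ) (k : ℕ), ∀ n : ℕ, 4 ≤ n → ∀ (d : Fin n → ℕ) (f : Omega d → ℝ),
    ∑ G : Omega d, ∑ H : Omega d,
        (if dist G.1 H.1 ≤ D then (f G - f H) ^ 2 else 0) ≤
      C * (n : ℝ) ^ k * energy d f

/-- Module C: canonical paths of bounded jumps for all pairs. -/
def VarianceFromJumps : Prop :=
  ∃ (D : ℕ) (C : ℝ) (k : ℕ), ∀ n : ℕ, 4 ≤ n → ∀ (d : Fin n → ℕ) (f : Omega d → ℝ),
    ∑ G : Omega d, ∑ H : Omega d, (f G - f H) ^ 2 ≤
      C * (n : ℝ) ^ k * (Fintype.card (Omega d) : ℝ) *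
        ∑ G : Omega d, ∑ H : Omega d,
          (if dist G.1 H.1 ≤ D then (f G - f H) ^ 2 else 0)

end Vale.Agent.P335
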