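import Mathlib
import Vale.Agent.P335.Defs

/-!
Shared definitions for module C (canonical paths for all pairs): edge sets, colours, transition
systems, trails.
-/

open Finset
open scoped Classical symmDiff

namespace Vale.Agent.P335

variable {n : ℕ}

/-- Edge sets. -/
abbrev ESet (n : ℕ) := Finset (Sym2 (Fin n))

/-- The edge set of a graph. -/
noncomputable def edg (G : SimpleGraph (Fin n)) : ESet n := univ.filter fun e => e ∈ G.edgeSet

/-- The degree of `v` in an edge set. -/
def degE (X : ESet n) (v : Fin n) : ℕ := (univ.filter fun u => s(v, u) ∈ X).card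

/-- `X` is the edge set of a simple graph with degrees `d`. -/
def Realizes (d : Fin n → ℕ) (X : ESet n) : Prop :=
  (∀ e ∈ X, ¬ e.IsDiag) ∧ ∀ v, degE X v = d v

/-- Colour of the pair `v u` for the ordered pair `(X, Y)`: 0 in `X` only, 1 in `Y` only,
2 otherwise. -/
def col (X Y : ESet n) (v u : Fin n) : Fin 3 :=
  if s(v, u) ∈ X ∧ s(v, u) ∉ Y then 0 else if s(v, u) ∈ Y ∧ s(v, u) ∉ X then 1 else 2

/-- The opposite colour. -/
def opp : Fin 3 → Fin 3 := ![1, 0, 2]

/-- A transition system: a permutation of the possible neighbours at every vertex. -/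
abbrev Trans (n : ℕ) := Fin n → Equiv.Perm (Fin n)

/-- Each local permutation is an involution. -/
def Invol (T : Trans n) : Prop := ∀ v u, T v (T v u) = u

/-- The transition at `v u` alternates colours. -/
def GoodAt (X Y : ESet n) (T : Trans n) (v u : Fin n) : Prop :=
  col X Y v (T v u) = opp (col X Y v u) ∧ (col X Y v u = 2 → T v u = u)

/-- The transition systems that pair `X`-only edges with `Y`-only edges at every vertex. -/
noncomputable def valid (X Y : ESet n) : Finset (Trans n) :=
  univ.filter fun T => Invol T ∧ ∀ v u, GoodAt X Y T v u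

/-- The places where `T` fails to alternate. -/
noncomputable def bad (X Y : ESet n) (T : Trans n) : Finset (Fin n × Fin n) :=
  univ.filter fun p => ¬ GoodAt X Y T p.1 p.2

/-- Next dart: `(u, v) ↦ (v, T v u)`. -/
def nxt (T : Trans n) : Equiv.Perm (Fin n × Fin n) where
  toFun p := (p.2, T p.2 p.1)
  invFun q := ((T q.1).symm q.2, q.1)
  left_inv p := by simp
  right_inv q := by simp

/-- The edge under the `t`-th dart of the trail from `d₀`. -/
def cell (T : Trans n) (d₀ : Fin n × Fin n) (t : ℕ) : Sym2 (Fin n) :=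
  s(((nxt T)^[t] d₀).1, ((nxt T)^[t] d₀).2)

/-- The edge set of the closed trail through `d₀`. -/
noncomputable def cyc (T : Trans n) (d₀ : Fin n × Fin n) : ESet n :=
  (range (n * n)).image (cell T d₀)

/-- The segment `[p, q)` of the trail through `d₀`. -/
def seg (T : Trans n) (d₀ : Fin n × Fin n) (p q : ℕ) : ESet n :=
  (Ico p q).image (cell T d₀)

/-- The union of the trails in `H` whose starting dart has index below `c`. -/
noncomputable def done (T : Trans n) (H : ESet n) (c : ℕ) : ESet n :=
  H.filter fun e => ∃ d₀ : Fin n × Fin n, (finProdFinEquiv d₀).1 < c ∧ e ∈ cyc T d₀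

/-- The state after the trails below `c` and the segment `[p, q)` of the trail of `d₀` are
flipped, starting from `G`. -/
noncomputable def state (T : Trans n) (G H : ESet n) (c : ℕ) (d₀ : Fin n × Fin n) (p q : ℕ) :
    ESet n :=
  G ∆ (done T H c ∪ seg T d₀ p q)

/-- Constant bounding all edit sets. -/
def edit : ℕ := 8

/-- `M` is a legal intermediate realization for the pair `(G, G')` with transitions `T`. -/
def Nice (d : Fin n → ℕ) (G G' : ESet n) (T : Trans n) (M : ESet n) : Prop :=
  ∃ (c : ℕ) (d₀ : Fin n × Fin n) (p q : ℕ) (N : ESet n),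
    c ≤ n * n ∧ p ≤ 3 * (n * n) ∧ q ≤ 3 * (n * n) ∧ Realizes d M ∧ Realizes d N ∧
      (M ∆ state T G (G ∆ G') c d₀ p q).card ≤ edit ∧
      (N ∆ (state T G (G ∆ G') c d₀ p q ∆ (G ∆ G'))).card ≤ edit ∧
      (bad (state T G (G ∆ G') c d₀ p q) (state T G (G ∆ G') c d₀ p q ∆ (G ∆ G')) T).card ≤ edit

/-- One step between legal intermediate realizations. -/
def NiceStep (d : Fin n → ℕ) (G G' : ESet n) (T : Trans n) (M M' : ESet n) : Prop :=
  Nice d G G' T M ∧ Nice d G G' T M' ∧ (M ∆ M').card ≤ 4 * edit

/-- C1 (trails): every valid pair is joined by legal steps. -/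
def PathsExist : Prop :=
  ∀ (n : ℕ) (d : Fin n → ℕ) (G G' : ESet n) (T : Trans n), Realizes d G → Realizes d G' →
    T ∈ valid G G' → Relation.ReflTransGen (NiceStep d G G' T) G G'

/-- C2 (pairings): valid systems exist; their number changes polynomially under bounded edits of
the difference set; an almost alternating system can be repaired where it fails. -/
def PairingFacts : Prop :=
  (∀ (n : ℕ) (d : Fin n → ℕ) (X Y : ESet n), Realizes d X → Realizes d Y →
      (valid X Y).Nonempty) ∧
  (∀ R : ℕ, ∃ j : ℕ, ∀ (n : ℕ) (d : Fin n → ℕ) (X Y X' Y' : ESet n), 2 ≤ n → Realizes d X →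
      Realizes d Y → Realizes d X' → Realizes d Y' → ((X ∆ Y) ∆ (X' ∆ Y')).card ≤ R →
      (valid X' Y').card ≤ n ^ j * (valid X Y).card) ∧
  (∀ (n : ℕ) (d : Fin n → ℕ) (X Y : ESet n) (T : Trans n), Realizes d X → Realizes d Y →
      Invol T → ∃ T' ∈ valid X Y, ∀ v u, (v, u) ∉ bad X Y T → T' v u = T v u)

/-- C3 (counting): paths and pairing facts give the variance bound. -/
def EncodingBound : Prop := PathsExist → PairingFacts → VarianceFromJumps

end Vale.Agent.P335
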