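import Mathlib
import Vale.Agent.P335.Defs

/-!
Module B: bounded jumps between realisations are dominated by switches.
-/

open scoped Classical

namespace Vale.Agent.P335.Jumps

open Finset

variable {n : ℕ} {d : Fin n → ℕ}

theorem ncard_exchange_eq {α : Type*} [Finite α] {s t : Set α} {p q : α} (hp : p ∈ s) (hq : q ∉ s)
    (h : ∀ u, u ∈ t ↔ (u ∈ s ∧ u ≠ p) ∨ u = q) : t.ncard = s.ncard := by
  have ht : t = insert q (s \ {p}) := by
    ext u
    rw [h u]
    simp [or_comm]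
  rw [ht, Set.ncard_exchange hq hp]

/-- Adjacency after a move along an admissible quadruple. -/
theorem move_adj {G : SimpleGraph (Fin n)} {x : Fin 4 ↪ Fin n}
    (hx : G.Adj (x 0) (x 1) ∧ G.Adj (x 2) (x 3) ∧ ¬ G.Adj (x 0) (x 2) ∧ ¬ G.Adj (x 1) (x 3))
    (u v : Fin n) :
    (move G x).Adj u v ↔
      u ≠ v ∧ ((G.Adj u v ∧ s(u, v) ≠ s(x 0, x 1) ∧ s(u, v) ≠ s(x 2, x 3)) ∨
        s(u, v) = s(x 0, x 2) ∨ s(u, v) = s(x 1, x 3)) := by
  rw [move, if_pos hx, SimpleGraph.fromEdgeSet_adj]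
  simp only [Set.mem_union, Set.mem_sdiff, Set.mem_insert_iff, Set.mem_singleton_iff,
    SimpleGraph.mem_edgeSet, not_or]
  tauto

theorem move_mem (G : Omega d) (x : Fin 4 ↪ Fin n) :
    ∀ v, ((move G.1 x).neighborSet v).ncard = d v := by
  intro v
  by_cases hx : G.1.Adj (x 0) (x 1) ∧ G.1.Adj (x 2) (x 3) ∧ ¬ G.1.Adj (x 0) (x 2) ∧
      ¬ G.1.Adj (x 1) (x 3)
  · have hm := move_adj hx
    obtain ⟨h01, h23, h02, h13⟩ := hx
    have ne : ∀ i j : Fin 4, i ≠ j → x i ≠ x j := fun i j hij => x.injective.ne hij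
    have n01 := ne 0 1 (by decide)
    have n02 := ne 0 2 (by decide)
    have n03 := ne 0 3 (by decide)
    have n12 := ne 1 2 (by decide)
    have n13 := ne 1 3 (by decide)
    have n23 := ne 2 3 (by decide)
    rw [← G.2 v]
    rcases eq_or_ne v (x 0) with rfl | v0
    · refine ncard_exchange_eq (p := x 1) (q := x 2) h01 h02 fun u => ?_
      simp only [SimpleGraph.mem_neighborSet, hm, Sym2.eq_iff]
      grind [G.1.loopless, SimpleGraph.Adj.ne]
    rcases eq_or_ne v (x 1) with rfl | v1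
    · refine ncard_exchange_eq (p := x 0) (q := x 3) h01.symm h13 fun u => ?_
      simp only [SimpleGraph.mem_neighborSet, hm, Sym2.eq_iff]
      grind [G.1.loopless, SimpleGraph.Adj.ne]
    rcases eq_or_ne v (x 2) with rfl | v2
    · refine ncard_exchange_eq (p := x 3) (q := x 0) h23 (fun h => h02 h.symm) fun u => ?_
      simp only [SimpleGraph.mem_neighborSet, hm, Sym2.eq_iff]
      grind [G.1.loopless, SimpleGraph.Adj.ne]
    rcases eq_or_ne v (x 3) with rfl | v3
    · refine ncard_exchange_eq (p := x 2) (q := x 1) h23.symm (fun h => h13 h.symm) fun u => ?_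
      simp only [SimpleGraph.mem_neighborSet, hm, Sym2.eq_iff]
      grind [G.1.loopless, SimpleGraph.Adj.ne]
    congr 1
    ext u
    simp only [SimpleGraph.mem_neighborSet, hm, Sym2.eq_iff]
    grind [SimpleGraph.Adj.ne]
  · rw [move, if_neg hx]
    exact G.2 v

/-- `H` is obtained from `G` by one switch. -/
def Step (G H : Omega d) : Prop :=
  ∃ x : Fin 4 ↪ Fin n, move G.1 x = H.1

/-- The set of places where two graphs differ. -/
noncomputable def diff (G H : SimpleGraph (Fin n)) : Finset (Fin n × Fin n) :=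
  univ.filter fun p => ¬(G.Adj p.1 p.2 ↔ H.Adj p.1 p.2)

theorem card_diff (G H : SimpleGraph (Fin n)) : (diff G H).card = dist G H := by
  unfold diff dist
  convert rfl

theorem dist_comm (G H : SimpleGraph (Fin n)) : dist G H = dist H G := by
  rw [← card_diff, ← card_diff]
  congr 1
  ext p
  simp [diff, iff_comm]

/-- A switch along an alternating 3-path whose closing pair is not in `G \ H`. -/
theorem path_switch (G H : Omega d) {a b c e : Fin n} (nac : a ≠ c) (nae : a ≠ e) (nbe : b ≠ e)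
    (hab : G.1.Adj a b ∧ ¬ H.1.Adj a b) (hbc : H.1.Adj b c ∧ ¬ G.1.Adj b c)
    (hce : G.1.Adj c e ∧ ¬ H.1.Adj c e) (hae : ¬(G.1.Adj a e ∧ ¬ H.1.Adj a e)) :
    ∃ X : Omega d, (Step G X ∧ dist X.1 H.1 < dist G.1 H.1) ∨
      (Step H X ∧ dist G.1 X.1 < dist G.1 H.1) := by
  have nab : a ≠ b := hab.1.ne
  have nbc : b ≠ c := hbc.1.ne
  have nce : c ≠ e := hce.1.ne
  set T : Finset (Fin n × Fin n) := {(a, b), (b, c), (c, e)} with hT
  have hT3 : T.card = 3 := by
    simp [hT]
    grind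
  have hTsub : T ⊆ diff G.1 H.1 := by
    intro p hp
    simp only [hT, mem_insert, mem_singleton] at hp
    simp only [diff, mem_filter, mem_univ, true_and]
    rcases hp with rfl | rfl | rfl <;> tauto
  set U : Finset (Fin n × Fin n) := {(a, e), (e, a)} with hU
  have hU2 : U.card ≤ 2 := (card_insert_le _ _).trans (by simp)
  have key : ∀ D' : Finset (Fin n × Fin n), D' ⊆ (diff G.1 H.1 \ T) ∪ U →
      D'.card < dist G.1 H.1 := by
    intro D' hD
    have h1 := (card_le_card hD).trans (card_union_le _ _)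
    rw [card_sdiff_of_subset hTsub, hT3] at h1
    have h2 := card_le_card hTsub
    rw [hT3] at h2
    rw [← card_diff]
    omega
  by_cases hG : G.1.Adj a e
  · have hH : H.1.Adj a e := by tauto
    let x : Fin 4 ↪ Fin n := ⟨![b, c, a, e], by
      intro i j; fin_cases i <;> fin_cases j <;> simp <;> grind⟩
    have hx : H.1.Adj (x 0) (x 1) ∧ H.1.Adj (x 2) (x 3) ∧ ¬ H.1.Adj (x 0) (x 2) ∧
        ¬ H.1.Adj (x 1) (x 3) := ⟨hbc.1, hH, fun h => hab.2 h.symm, hce.2⟩
    refine ⟨⟨move H.1 x, move_mem H x⟩, Or.inr ⟨⟨x, rfl⟩, ?_⟩⟩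
    rw [← card_diff]
    refine key _ fun p hp => ?_
    obtain ⟨u, v⟩ := p
    simp only [diff, mem_filter, mem_univ, true_and, move_adj hx] at hp
    have e0 : x 0 = b := rfl
    have e1 : x 1 = c := rfl
    have e2 : x 2 = a := rfl
    have e3 : x 3 = e := rfl
    simp only [e0, e1, e2, e3, Sym2.eq_iff] at hp
    simp only [hT, hU, diff, mem_union, mem_sdiff, mem_filter, mem_univ, true_and, mem_insert,
      mem_singleton, Prod.mk.injEq]
    grind [SimpleGraph.Adj.symm, SimpleGraph.Adj.ne]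
  · let x : Fin 4 ↪ Fin n := ⟨![b, a, c, e], by
      intro i j; fin_cases i <;> fin_cases j <;> simp <;> grind⟩
    have hx : G.1.Adj (x 0) (x 1) ∧ G.1.Adj (x 2) (x 3) ∧ ¬ G.1.Adj (x 0) (x 2) ∧
        ¬ G.1.Adj (x 1) (x 3) := ⟨hab.1.symm, hce.1, hbc.2, hG⟩
    refine ⟨⟨move G.1 x, move_mem G x⟩, Or.inl ⟨⟨x, rfl⟩, ?_⟩⟩
    rw [← card_diff]
    refine key _ fun p hp => ?_
    obtain ⟨u, v⟩ := p
    simp only [diff, mem_filter, mem_univ, true_and, move_adj hx] at hp
    have e0 : x 0 = b := rfl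
    have e1 : x 1 = a := rfl
    have e2 : x 2 = c := rfl
    have e3 : x 3 = e := rfl
    simp only [e0, e1, e2, e3, Sym2.eq_iff] at hp
    simp only [hT, hU, diff, mem_union, mem_sdiff, mem_filter, mem_univ, true_and, mem_insert,
      mem_singleton, Prod.mk.injEq]
    grind [SimpleGraph.Adj.symm, SimpleGraph.Adj.ne]

/-- The neighbours along `G \ H`. -/
noncomputable def red (G H : SimpleGraph (Fin n)) (v : Fin n) : Finset (Fin n) :=
  univ.filter fun u => G.Adj v u ∧ ¬ H.Adj v u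

theorem mem_red {G H : SimpleGraph (Fin n)} {u v : Fin n} :
    u ∈ red G H v ↔ G.Adj v u ∧ ¬ H.Adj v u := by simp [red]

theorem red_eq_blue (G H : Omega d) (v : Fin n) :
    (red G.1 H.1 v).card = (red H.1 G.1 v).card := by
  have h : ∀ K : Omega d, (univ.filter fun u => K.1.Adj v u).card = d v := by
    intro K
    rw [← K.2 v, Set.ncard_eq_toFinset_card']
    congr 1
    ext u
    simp
  have e1 : (red G.1 H.1 v).card + (univ.filter fun u => G.1.Adj v u ∧ H.1.Adj v u).card = d v := by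
    rw [← h G, ← card_union_of_disjoint]
    · congr 1; ext u; simp [red]; tauto
    · rw [disjoint_left]; intro u; simp [red]; tauto
  have e2 : (red H.1 G.1 v).card + (univ.filter fun u => G.1.Adj v u ∧ H.1.Adj v u).card = d v := by
    rw [← h H, ← card_union_of_disjoint]
    · congr 1; ext u; simp [red]; tauto
    · rw [disjoint_left]; intro u; simp [red]; tauto
  omega

theorem exists_red (G H : Omega d) (hne : G ≠ H) :
    ∃ c e, G.1.Adj c e ∧ ¬ H.1.Adj c e := by
  by_contra hno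
  push Not at hno
  refine hne (Subtype.ext ?_)
  ext u v
  refine ⟨hno u v, fun h => ?_⟩
  by_contra hg
  have h1 : (red G.1 H.1 u) = ∅ := by
    ext w; simp only [mem_red, notMem_empty, iff_false, not_and, not_not]; exact hno u w
  have h2 : 0 < (red H.1 G.1 u).card := card_pos.2 ⟨v, mem_red.2 ⟨h, hg⟩⟩
  rw [← red_eq_blue, h1] at h2
  simp at h2

/-- Two different realisations can be brought closer by one switch on one of them. -/
theorem exists_step (G H : Omega d) (hne : G ≠ H) :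
    ∃ X : Omega d, (Step G X ∧ dist X.1 H.1 < dist G.1 H.1) ∨
      (Step H X ∧ dist G.1 X.1 < dist G.1 H.1) := by
  obtain ⟨c, e, hce⟩ := exists_red G H hne
  have hb : 0 < (red H.1 G.1 c).card := by
    rw [← red_eq_blue]; exact card_pos.2 ⟨e, mem_red.2 hce⟩
  obtain ⟨b, hb⟩ := card_pos.1 hb
  rw [mem_red] at hb
  have nbe : b ≠ e := by rintro rfl; exact hb.2 hce.1
  by_contra hno
  have hR : ∀ a ∈ (red G.1 H.1 b).erase e, a ∈ red G.1 H.1 e := by
    intro a ha
    rw [mem_erase, mem_red] at ha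
    obtain ⟨hae, hab, hab'⟩ := ha
    rw [mem_red]
    by_contra hcon
    exact hno (path_switch G H (a := a) (b := b) (c := c) (e := e)
      (by rintro rfl; exact hb.2 hab.symm) hae nbe ⟨hab.symm, fun h => hab' h.symm⟩
      ⟨hb.1.symm, fun h => hb.2 h.symm⟩ hce (fun h => hcon ⟨h.1.symm, fun h' => h.2 h'.symm⟩))
  have hB : ∀ a ∈ (red H.1 G.1 e).erase b, a ∈ red H.1 G.1 b := by
    intro a ha
    rw [mem_erase, mem_red] at ha
    obtain ⟨hab, hea, hea'⟩ := ha
    rw [mem_red]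
    by_contra hcon
    obtain ⟨X, hX⟩ := path_switch H G (a := a) (b := e) (c := c) (e := b)
      (by rintro rfl; exact hce.2 hea.symm) hab nbe.symm ⟨hea.symm, fun h => hea' h.symm⟩
      ⟨hce.1.symm, fun h => hce.2 h.symm⟩ ⟨hb.1, hb.2⟩
      (fun h => hcon ⟨h.1.symm, fun h' => h.2 h'.symm⟩)
    rw [dist_comm H.1 G.1] at hX
    rcases hX with ⟨h1, h2⟩ | ⟨h1, h2⟩
    · rw [dist_comm X.1] at h2; exact hno ⟨X, Or.inr ⟨h1, h2⟩⟩
    · rw [dist_comm H.1] at h2; exact hno ⟨X, Or.inl ⟨h1, h2⟩⟩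
  have hc1 : c ∈ red G.1 H.1 e := mem_red.2 ⟨hce.1.symm, fun h => hce.2 h.symm⟩
  have hc2 : c ∉ red G.1 H.1 b := fun h => hb.2 (mem_red.1 h).1.symm
  have hc3 : c ∈ red H.1 G.1 b := mem_red.2 ⟨hb.1.symm, fun h => hb.2 h.symm⟩
  have hc4 : c ∉ red H.1 G.1 e := fun h => hce.2 (mem_red.1 h).1.symm
  have i1 : (insert c ((red G.1 H.1 b).erase e)).card ≤ (red G.1 H.1 e).card :=
    card_le_card (insert_subset hc1 hR)
  rw [card_insert_of_notMem (fun h => hc2 (mem_of_mem_erase h))] at i1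
  have i2 : (insert c ((red H.1 G.1 e).erase b)).card ≤ (red H.1 G.1 b).card :=
    card_le_card (insert_subset hc3 hB)
  rw [card_insert_of_notMem (fun h => hc4 (mem_of_mem_erase h))] at i2
  rw [← red_eq_blue G H b] at i2
  have hrb := red_eq_blue G H e
  by_cases h1 : e ∈ red G.1 H.1 b
  · have h2 : b ∉ red H.1 G.1 e := fun h =>
      (mem_red.1 h1).2 (mem_red.1 h).1.symm
    rw [card_erase_of_mem h1] at i1
    rw [erase_eq_of_notMem h2] at i2
    omega
  · rw [erase_eq_of_notMem h1] at i1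
    have := card_erase_add_one (s := red H.1 G.1 e) (a := b)
    by_cases h2 : b ∈ red H.1 G.1 e
    · rw [card_erase_of_mem h2] at i2
      omega
    · rw [erase_eq_of_notMem h2] at i2
      omega

/-- The number of realisations at distance at most `D` from a given one. -/
theorem ball_card (G : Omega d) (D : ℕ) :
    (univ.filter fun H : Omega d => dist G.1 H.1 ≤ D).card ≤ (n ^ 2 + 1) ^ D := by
  refine le_trans (card_le_card_of_injOn (t := (univ : Finset (Fin D → Option (Fin n × Fin n))))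
    (fun H i => (diff G.1 H.1).toList[(i : ℕ)]?) (fun _ _ => mem_coe.2 (mem_univ _)) ?_) ?_
  · intro H hH H' hH' he
    simp only [coe_filter, mem_univ, true_and, Set.mem_ofPred_eq, ← card_diff] at hH hH'
    have key : ∀ K : Omega d, (diff G.1 K.1).card ≤ D → ∀ p, p ∈ diff G.1 K.1 ↔
        ∃ i : Fin D, (diff G.1 K.1).toList[(i : ℕ)]? = some p := by
      intro K hK p
      rw [← mem_toList, List.mem_iff_getElem?]
      constructor
      · rintro ⟨i, hi⟩
        obtain ⟨hlt, -⟩ := List.getElem?_eq_some_iff.1 hi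
        rw [length_toList] at hlt
        exact ⟨⟨i, hlt.trans_le hK⟩, hi⟩
      · rintro ⟨i, hi⟩; exact ⟨i, hi⟩
    have hd : diff G.1 H.1 = diff G.1 H'.1 := by
      ext p
      rw [key H hH p, key H' hH' p]
      simp only [funext_iff] at he
      simp only [he]
    refine Subtype.ext ?_
    ext u v
    have := congrArg (fun s : Finset (Fin n × Fin n) => (u, v) ∈ s) hd
    simp [diff] at this
    tauto
  · simp [Fintype.card_option, pow_two]

theorem P_nonneg (G H : Omega d) : 0 ≤ P d G H := by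
  unfold P
  simp only [Matrix.of_apply]
  positivity

theorem step_le (f : Omega d → ℝ) {G X : Omega d} (h : Step G X) :
    (f G - f X) ^ 2 ≤ 2 * (n : ℝ) ^ 4 * ∑ Y : Omega d, P d G Y * (f G - f Y) ^ 2 := by
  obtain ⟨x, hx⟩ := h
  have hE : (0 : ℝ) < Fintype.card (Fin 4 ↪ Fin n) := by
    exact_mod_cast Fintype.card_pos_iff.2 ⟨x⟩
  have hE' : (Fintype.card (Fin 4 ↪ Fin n) : ℝ) ≤ (n : ℝ) ^ 4 := by
    have := Nat.descFactorial_le_pow n 4
    rw [Fintype.card_embedding_eq, Fintype.card_fin, Fintype.card_fin]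
    exact_mod_cast this
  have hP : 1 / (2 * (n : ℝ) ^ 4) ≤ P d G X := by
    unfold P
    simp only [Matrix.of_apply]
    have h1 : (1 : ℝ) ≤ (univ.filter fun y : Fin 4 ↪ Fin n => move G.1 y = X.1).card := by
      exact_mod_cast card_pos.2 ⟨x, by simp [hx]⟩
    refine le_trans ?_ (le_add_of_nonneg_left (by split_ifs <;> norm_num))
    calc 1 / (2 * (n : ℝ) ^ 4) ≤ 1 / (2 * (Fintype.card (Fin 4 ↪ Fin n) : ℝ)) := by gcongr
      _ = (1 / 2) * 1 / (Fintype.card (Fin 4 ↪ Fin n) : ℝ) := by ring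
      _ ≤ _ := by gcongr
  have hn : (0 : ℝ) < (n : ℝ) ^ 4 := hE.trans_le hE'
  have h2 : P d G X * (f G - f X) ^ 2 ≤ ∑ Y : Omega d, P d G Y * (f G - f Y) ^ 2 :=
    single_le_sum (f := fun Y => P d G Y * (f G - f Y) ^ 2)
      (fun Y _ => mul_nonneg (P_nonneg G Y) (sq_nonneg _)) (mem_univ X)
  rw [div_le_iff₀ (by positivity)] at hP
  calc (f G - f X) ^ 2 = 1 * (f G - f X) ^ 2 := (one_mul _).symm
    _ ≤ P d G X * (2 * (n : ℝ) ^ 4) * (f G - f X) ^ 2 := by gcongr
    _ = 2 * (n : ℝ) ^ 4 * (P d G X * (f G - f X) ^ 2) := by ring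
    _ ≤ _ := by gcongr

/-- The truncated jump energy. -/
noncomputable def jump (D : ℕ) (f : Omega d → ℝ) (G H : Omega d) : ℝ :=
  if dist G.1 H.1 ≤ D then (f G - f H) ^ 2 else 0

theorem jump_nonneg (D : ℕ) (f : Omega d → ℝ) (G H : Omega d) : 0 ≤ jump D f G H := by
  unfold jump; split_ifs <;> positivity

theorem jump_pointwise (f : Omega d → ℝ) (D : ℕ) {G H : Omega d} (loc rest : Omega d → ℝ)
    (hl0 : ∀ G, 0 ≤ loc G) (hr0 : ∀ G, 0 ≤ rest G)
    (hloc : ∀ G X, Step G X → (f G - f X) ^ 2 ≤ loc G)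
    (hrest : ∀ G X, jump D f G X ≤ rest G) :
    jump (D + 1) f G H ≤
      if dist G.1 H.1 ≤ D + 1 then 2 * (loc G + loc H) + 2 * (rest G + rest H) else 0 := by
  by_cases hle : dist G.1 H.1 ≤ D + 1
  swap
  · rw [jump, if_neg hle, if_neg hle]
  rw [jump, if_pos hle, if_pos hle]
  have hl1 := hl0 G
  have hl2 := hl0 H
  have hr1 := hr0 G
  have hr2 := hr0 H
  rcases eq_or_ne G H with rfl | hne
  · rw [sub_self, zero_pow two_ne_zero]; linarith
  have hsq : ∀ a b c : ℝ, (a - c) ^ 2 ≤ 2 * (a - b) ^ 2 + 2 * (b - c) ^ 2 := fun a b c => by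
    nlinarith only [sq_nonneg (a - 2 * b + c)]
  obtain ⟨X, ⟨hs, hd⟩ | ⟨hs, hd⟩⟩ := exists_step G H hne
  · have h1 := hloc G X hs
    have h2 := hrest H X
    rw [jump, if_pos (by rw [dist_comm]; omega)] at h2
    have h3 := hsq (f G) (f X) (f H)
    have e : (f X - f H) ^ 2 = (f H - f X) ^ 2 := by ring
    linarith
  · have h1 := hloc H X hs
    have h2 := hrest G X
    rw [jump, if_pos (by omega)] at h2
    have h3 := hsq (f G) (f X) (f H)
    have e : (f X - f H) ^ 2 = (f H - f X) ^ 2 := by ring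
    linarith

theorem count_left (D : ℕ) (φ : Omega d → ℝ) (hφ : ∀ G, 0 ≤ φ G) :
    ∑ G : Omega d, ∑ H : Omega d, (if dist G.1 H.1 ≤ D then φ G else 0)
      ≤ ((n : ℝ) ^ 2 + 1) ^ D * ∑ G, φ G := by
  rw [mul_sum]
  refine sum_le_sum fun G _ => ?_
  rw [← sum_filter, sum_const, nsmul_eq_mul]
  refine mul_le_mul_of_nonneg_right ?_ (hφ G)
  exact_mod_cast ball_card G D

theorem count_right (D : ℕ) (φ : Omega d → ℝ) (hφ : ∀ G, 0 ≤ φ G) :
    ∑ G : Omega d, ∑ H : Omega d, (if dist G.1 H.1 ≤ D then φ H else 0)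
      ≤ ((n : ℝ) ^ 2 + 1) ^ D * ∑ G, φ G := by
  rw [sum_comm]
  refine le_trans (le_of_eq ?_) (count_left D φ hφ)
  exact sum_congr rfl fun (G : Omega d) _ => sum_congr rfl fun (H : Omega d) _ => by
    rw [dist_comm H.1 G.1]

theorem induct_aux (D : ℕ) (u : Omega d → ℝ) (hu : ∀ G, 0 ≤ u G) (j : Omega d → Omega d → ℝ)
    (hj : ∀ G H : Omega d, j G H ≤ if dist G.1 H.1 ≤ D then u G + u H else 0) :
    ∑ G, ∑ H, j G H ≤ 2 * (((n : ℝ) ^ 2 + 1) ^ D * ∑ G, u G) := by
  have h1 := count_left (d := d) D u hu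
  have h2 := count_right (d := d) D u hu
  have h3 : ∑ G, ∑ H, j G H ≤ ∑ G : Omega d, ∑ H : Omega d,
      ((if dist G.1 H.1 ≤ D then u G else 0) + (if dist G.1 H.1 ≤ D then u H else 0)) := by
    refine sum_le_sum fun G _ => sum_le_sum fun H _ => (hj G H).trans (le_of_eq ?_)
    split_ifs
    · rfl
    · rw [add_zero]
  simp only [sum_add_distrib] at h3
  linarith

theorem induct_step (f : Omega d → ℝ) (D : ℕ) :
    ∑ G, ∑ H, jump (D + 1) f G H ≤ 4 * ((n : ℝ) ^ 2 + 1) ^ (D + 1) *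
      (2 * (n : ℝ) ^ 4 * energy d f + ∑ G, ∑ H, jump D f G H) := by
  have hl0 : ∀ G : Omega d, 0 ≤ 2 * (n : ℝ) ^ 4 * ∑ Y : Omega d, P d G Y * (f G - f Y) ^ 2 :=
    fun G => mul_nonneg (by positivity)
      (sum_nonneg fun Y _ => mul_nonneg (P_nonneg G Y) (sq_nonneg _))
  have hr0 : ∀ G : Omega d, 0 ≤ ∑ X, jump D f G X := fun G =>
    sum_nonneg fun X _ => jump_nonneg D f G X
  obtain ⟨u, hu⟩ : ∃ u : Omega d → ℝ, u = fun G =>
      2 * (2 * (n : ℝ) ^ 4 * ∑ Y : Omega d, P d G Y * (f G - f Y) ^ 2) +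
        2 * ∑ X, jump D f G X := ⟨_, rfl⟩
  have hu0 : ∀ G, 0 ≤ u G := fun G => by
    rw [hu]; exact add_nonneg (by linarith [hl0 G]) (by linarith [hr0 G])
  have main := induct_aux (D + 1) u hu0 (jump (D + 1) f) fun G H => by
    refine le_trans (jump_pointwise f D (G := G) (H := H)
      (fun G => 2 * (n : ℝ) ^ 4 * ∑ Y : Omega d, P d G Y * (f G - f Y) ^ 2)
      (fun G => ∑ X, jump D f G X) hl0 hr0 (fun G X h => step_le f h)
      (fun G X => single_le_sum (fun Y _ => jump_nonneg D f G Y) (mem_univ X))) ?_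
    split_ifs
    · rw [hu]; linarith
    · exact le_rfl
  have e : ∑ G, u G = 2 * (2 * (n : ℝ) ^ 4 * energy d f) + 2 * ∑ G, ∑ H, jump D f G H := by
    rw [hu, sum_add_distrib, ← mul_sum, ← mul_sum, ← mul_sum]
    rfl
  rw [e] at main
  linarith

theorem jump_zero (f : Omega d → ℝ) (G H : Omega d) : jump 0 f G H = 0 := by
  unfold jump
  split_ifs with h
  · rcases eq_or_ne G H with rfl | hne
    · simp
    · obtain ⟨X, hX⟩ := exists_step G H hne
      omega
  · rfl

theorem energy_nonneg (f : Omega d → ℝ) : 0 ≤ energy d f :=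
  sum_nonneg fun G _ => sum_nonneg fun H _ => mul_nonneg (P_nonneg G H) (sq_nonneg _)

/-- Module B. -/
theorem jumpsFromSwitches : JumpsFromSwitches := by
  intro D
  induction D with
  | zero =>
    refine ⟨0, 0, fun n _ d f => ?_⟩
    have := fun G H => jump_zero f (d := d) G H
    simp only [jump] at this
    simp only [this, sum_const_zero, zero_mul, le_refl]
  | succ D ih =>
    obtain ⟨C, k, hC⟩ := ih
    refine ⟨4 * 2 ^ (D + 1) * (2 + max C 0), 2 * (D + 1) + (k + 4), fun n hn d f => ?_⟩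
    refine le_trans (induct_step f D) ?_
    have hn1 : (1 : ℝ) ≤ n := by exact_mod_cast le_trans (by norm_num) hn
    have hE := energy_nonneg f
    have hB : ((n : ℝ) ^ 2 + 1) ^ (D + 1) ≤ 2 ^ (D + 1) * (n : ℝ) ^ (2 * (D + 1)) := by
      rw [pow_mul, ← mul_pow]
      have : (1 : ℝ) ≤ (n : ℝ) ^ 2 := one_le_pow₀ hn1
      gcongr
      linarith
    have h1 : ∑ G, ∑ H, jump D f G H ≤ max C 0 * (n : ℝ) ^ (k + 4) * energy d f := by
      refine (hC n hn d f).trans ?_
      gcongr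
      · exact le_max_left _ _
      · omega
    have h2 : 2 * (n : ℝ) ^ 4 * energy d f ≤ 2 * (n : ℝ) ^ (k + 4) * energy d f := by
      gcongr
      omega
    have h3 : 0 ≤ ∑ G, ∑ H, jump D f G H :=
      sum_nonneg fun G _ => sum_nonneg fun H _ => jump_nonneg D f G H
    calc 4 * ((n : ℝ) ^ 2 + 1) ^ (D + 1) *
          (2 * (n : ℝ) ^ 4 * energy d f + ∑ G, ∑ H, jump D f G H)
        ≤ 4 * (2 ^ (D + 1) * (n : ℝ) ^ (2 * (D + 1))) *
          ((2 + max C 0) * (n : ℝ) ^ (k + 4) * energy d f) := by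
          gcongr
          linarith
      _ = _ := by rw [pow_add _ (2 * (D + 1))]; ring

end Vale.Agent.P335.Jumps

namespace Vale.Agent.P335

/-- Module B. -/
theorem jumpsFromSwitches : JumpsFromSwitches := Jumps.jumpsFromSwitches

end Vale.Agent.P335
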