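import Mathlib
import Vale.Agent.P335.Defs
import Vale.Agent.P335.CDefs
import Vale.Agent.P335.Jumps

/-!
Module C3: canonical paths and their encoding give the variance bound.
-/

open Finset
open scoped Classical symmDiff

namespace Vale.Agent.P335.Encoding

variable {n : ℕ}

/-! ### Coding small sets -/

/-- The set coded by a short list. -/
noncomputable def decode {α : Type*} [Fintype α] {k : ℕ} (h : Fin k → Option α) : Finset α :=
  univ.filter fun p => ∃ i, h i = some p

theorem exists_code {α : Type*} [Fintype α] {k : ℕ} {S : Finset α} (hS : S.card ≤ k) :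
    ∃ h : Fin k → Option α, decode h = S := by
  refine ⟨fun i => S.toList[(i : ℕ)]?, ?_⟩
  ext p
  simp only [decode, mem_filter, mem_univ, true_and]
  rw [← mem_toList, List.mem_iff_getElem?]
  constructor
  · rintro ⟨i, hi⟩; exact ⟨i, hi⟩
  · rintro ⟨i, hi⟩
    obtain ⟨hlt, -⟩ := List.getElem?_eq_some_iff.1 hi
    rw [length_toList] at hlt
    exact ⟨⟨i, hlt.trans_le hS⟩, hi⟩

/-! ### Edge sets of realisations -/

variable {d : Fin n → ℕ}

theorem mem_edg {G : SimpleGraph (Fin n)} {u v : Fin n} : s(u, v) ∈ edg G ↔ G.Adj u v := by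
  simp [edg]

theorem realizes_edg (G : Omega d) : Realizes d (edg G.1) := by
  refine ⟨fun e => ?_, fun v => ?_⟩
  · induction e using Sym2.ind with
    | h u v => intro h; simpa using (mem_edg.1 h).ne
  · rw [← G.2 v, Set.ncard_eq_toFinset_card', degE]
    congr 1
    ext u
    simp [mem_edg]

theorem edg_injective : Function.Injective fun G : Omega d => edg G.1 := by
  intro G H h
  refine Subtype.ext ?_
  ext u v
  rw [← mem_edg, ← mem_edg]
  simp only at h
  rw [h]

theorem exists_of_realizes {X : ESet n} (hX : Realizes d X) : ∃ G : Omega d, edg G.1 = X := by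
  have hadj : ∀ u v, (SimpleGraph.fromEdgeSet (X : Set (Sym2 (Fin n)))).Adj u v ↔ s(u, v) ∈ X := by
    intro u v
    rw [SimpleGraph.fromEdgeSet_adj]
    refine ⟨fun h => h.1, fun h => ⟨h, ?_⟩⟩
    rintro rfl
    exact hX.1 _ h rfl
  refine ⟨⟨SimpleGraph.fromEdgeSet (X : Set (Sym2 (Fin n))), fun v => ?_⟩, ?_⟩
  · rw [← hX.2 v, Set.ncard_eq_toFinset_card', degE]
    congr 1
    ext u
    simp only [Set.mem_toFinset, SimpleGraph.mem_neighborSet, mem_filter, mem_univ, true_and, hadj]
  · ext e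
    induction e using Sym2.ind with
    | h u v =>
      show s(u, v) ∈ edg (SimpleGraph.fromEdgeSet (X : Set (Sym2 (Fin n)))) ↔ _
      rw [mem_edg, hadj]

/-- The darts over a set of edges. -/
noncomputable def darts (E : ESet n) : Finset (Fin n × Fin n) :=
  univ.filter fun p => s(p.1, p.2) ∈ E

theorem card_darts (E : ESet n) : (darts E).card ≤ 2 * E.card := by
  refine card_le_mul_card_image_of_maps_to (f := fun p : Fin n × Fin n => s(p.1, p.2))
    (fun p hp => (mem_filter.1 hp).2) 2 fun e he => ?_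
  induction e using Sym2.ind with
  | h a b =>
    refine le_trans (card_le_card (t := {(a, b), (b, a)}) fun p hp => ?_)
      ((card_insert_le _ _).trans (by simp))
    obtain ⟨u, v⟩ := p
    simp only [mem_filter, Sym2.eq_iff] at hp
    simp only [mem_insert, mem_singleton, Prod.mk.injEq]
    tauto

theorem dist_le (G H : Omega d) : dist G.1 H.1 ≤ 2 * (edg G.1 ∆ edg H.1).card := by
  refine le_trans (le_of_eq ?_) (card_darts _)
  rw [← Jumps.card_diff]
  congr 1
  ext ⟨u, v⟩
  simp only [Jumps.diff, darts, mem_filter, mem_univ, true_and, mem_symmDiff, mem_edg]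
  tauto

/-! ### Paths -/

/-- The graph of steps inside a set `P`. -/
noncomputable def stepGraph (P : Finset (Omega d)) : SimpleGraph (Omega d) :=
  SimpleGraph.fromRel fun a b => a ∈ P ∧ b ∈ P ∧ (edg a.1 ∆ edg b.1).card ≤ 4 * edit

theorem stepGraph_adj {P : Finset (Omega d)} {a b : Omega d} (h : (stepGraph P).Adj a b) :
    a ∈ P ∧ b ∈ P ∧ dist a.1 b.1 ≤ 8 * edit := by
  obtain ⟨-, h⟩ := h
  rcases h with ⟨h1, h2, h3⟩ | ⟨h1, h2, h3⟩
  · exact ⟨h1, h2, (dist_le a b).trans (by omega)⟩
  · rw [symmDiff_comm] at h3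
    exact ⟨h2, h1, (dist_le a b).trans (by omega)⟩

theorem walk_le (f : Omega d → ℝ) {P : Finset (Omega d)} {a b : Omega d}
    (p : (stepGraph P).Walk a b) (hp : p.IsPath) :
    |f a - f b| ≤ ∑ x ∈ p.support.toFinset.filter (· ∈ P),
      ∑ y ∈ univ.filter (fun y : Omega d => dist x.1 y.1 ≤ 8 * edit), |f x - f y| := by
  induction p with
  | nil => simpa using sum_nonneg fun x _ => sum_nonneg fun y _ => abs_nonneg _
  | @cons u v w h p ih =>
    rw [SimpleGraph.Walk.cons_isPath_iff] at hp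
    obtain ⟨hu, -, hd⟩ := stepGraph_adj h
    rw [SimpleGraph.Walk.support_cons, List.toFinset_cons, filter_insert, if_pos hu,
      sum_insert (by simp [hp.2])]
    refine (abs_sub_le _ (f v) _).trans (add_le_add ?_ (ih hp.1))
    exact single_le_sum (f := fun y => |f u - f y|) (fun y _ => abs_nonneg _)
      (mem_filter.2 ⟨mem_univ v, hd⟩)

/-- The intermediate realisations allowed for a pair and a transition system. -/
noncomputable def niceSet (G H : Omega d) (T : Trans n) : Finset (Omega d) :=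
  univ.filter fun a => Nice d (edg G.1) (edg H.1) T (edg a.1)

theorem reach (G H : Omega d) (T : Trans n) {X : ESet n}
    (h : Relation.ReflTransGen (NiceStep d (edg G.1) (edg H.1) T) (edg G.1) X) :
    ∀ a : Omega d, edg a.1 = X → (stepGraph (niceSet G H T)).Reachable G a := by
  induction h with
  | refl =>
    intro a ha
    rw [edg_injective ha]
  | @tail X Y _ h2 ih =>
    intro a ha
    obtain ⟨hX, hY, hc⟩ := h2
    have hX' := hX
    obtain ⟨-, -, -, -, -, -, -, -, hreal, -⟩ := hX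
    obtain ⟨b, hb⟩ := exists_of_realizes hreal
    refine (ih b hb).trans ?_
    rcases eq_or_ne b a with rfl | hne
    · exact SimpleGraph.Reachable.refl _
    refine SimpleGraph.Adj.reachable ⟨hne, Or.inl ⟨?_, ?_, ?_⟩⟩
    · simp only [niceSet, mem_filter, mem_univ, true_and, hb]
      exact hX'
    · simp only [niceSet, mem_filter, mem_univ, true_and, ha]
      exact hY
    · rw [hb, ha]; exact hc

theorem pair_le (hPE : PathsExist) (f : Omega d → ℝ) (G H : Omega d) {T : Trans n}
    (hT : T ∈ valid (edg G.1) (edg H.1)) :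
    (f G - f H) ^ 2 ≤ ((niceSet G H T).card : ℝ) * ((n : ℝ) ^ 2 + 1) ^ (8 * edit) *
      ∑ a ∈ niceSet G H T, ∑ b : Omega d,
        (if dist a.1 b.1 ≤ 8 * edit then (f a - f b) ^ 2 else 0) := by
  have hr := reach G H T (hPE n d _ _ T (realizes_edg G) (realizes_edg H) hT) H rfl
  set P := niceSet G H T with hP
  obtain ⟨pth, hpth⟩ := hr.exists_isPath
  set B : Omega d → Finset (Omega d) := fun x => univ.filter fun y => dist x.1 y.1 ≤ 8 * edit
    with hB
  have h1 : |f G - f H| ≤ ∑ z ∈ P.sigma B, |f z.1 - f z.2| := by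
    rw [sum_sigma]
    refine (walk_le f pth hpth).trans (sum_le_sum_of_subset_of_nonneg ?_
      fun x _ _ => sum_nonneg fun y _ => abs_nonneg _)
    intro x hx; exact (mem_filter.1 hx).2
  have h2 := sq_sum_le_card_mul_sum_sq (s := P.sigma B) (f := fun z => |f z.1 - f z.2|)
  have hcard : ((P.sigma B).card : ℝ) ≤ (P.card : ℝ) * ((n : ℝ) ^ 2 + 1) ^ (8 * edit) := by
    rw [card_sigma]
    push_cast
    refine (sum_le_card_nsmul _ _ _ fun x _ => ?_).trans_eq (nsmul_eq_mul _ _)
    exact_mod_cast Jumps.ball_card x (8 * edit)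
  calc (f G - f H) ^ 2 = |f G - f H| ^ 2 := (sq_abs _).symm
    _ ≤ (∑ z ∈ P.sigma B, |f z.1 - f z.2|) ^ 2 := pow_le_pow_left₀ (abs_nonneg _) h1 2
    _ ≤ (P.sigma B).card * ∑ z ∈ P.sigma B, |f z.1 - f z.2| ^ 2 := h2
    _ ≤ _ := by
      refine mul_le_mul hcard (le_of_eq ?_) (sum_nonneg fun z _ => sq_nonneg _) (by positivity)
      rw [sum_sigma]
      refine sum_congr rfl fun x _ => ?_
      simp only [hB, sq_abs, sum_filter]

/-! ### Encoding -/

/-- Auxiliary data: trail index, starting dart, segment, two edit sets. -/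
abbrev Pos (n : ℕ) :=
  Fin (n * n + 1) × (Fin n × Fin n) × Fin (3 * (n * n) + 1) × Fin (3 * (n * n) + 1) ×
    (Fin 8 → Option (Sym2 (Fin n)))

/-- The number of places where transitions are corrected. -/
def fixes : ℕ := 72

/-- The code of a triple relative to an intermediate realisation. -/
abbrev Code (n : ℕ) :=
  Pos n × (Fin 8 → Option (Sym2 (Fin n))) × (Fin fixes → Option (Fin n × Fin n × Fin n))

theorem card_niceSet (G H : Omega d) (T : Trans n) :
    (niceSet G H T).card ≤ Fintype.card (Pos n) := by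
  set st : Pos n → ESet n := fun z =>
    state T (edg G.1) (edg G.1 ∆ edg H.1) z.1 z.2.1 z.2.2.1 z.2.2.2.1 ∆ decode z.2.2.2.2 with hst
  calc (niceSet G H T).card
      = ((niceSet G H T).image fun a => edg a.1).card :=
        (card_image_of_injective _ edg_injective).symm
    _ ≤ ((univ : Finset (Pos n)).image st).card := by
        refine card_le_card fun X hX => ?_
        obtain ⟨a, ha, rfl⟩ := mem_image.1 hX
        obtain ⟨c, d₀, p, q, N, hc, hp, hq, -, -, hE, -⟩ := (mem_filter.1 ha).2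
        obtain ⟨h, hh⟩ := exists_code (k := 8) hE
        refine mem_image.2 ⟨(⟨c, by omega⟩, d₀, ⟨p, by omega⟩, ⟨q, by omega⟩, h), mem_univ _, ?_⟩
        simp only [hst, hh]
        rw [symmDiff_comm (edg a.1), symmDiff_symmDiff_cancel_left]
    _ ≤ _ := card_image_le.trans (card_univ).le

theorem col_congr {X Y X' Y' : ESet n} {v u : Fin n} (h1 : s(v, u) ∈ X ↔ s(v, u) ∈ X')
    (h2 : s(v, u) ∈ Y ↔ s(v, u) ∈ Y') : col X Y v u = col X' Y' v u := by
  simp only [col, h1, h2]

theorem mem_iff_of_notMem_symmDiff {e : Sym2 (Fin n)} {A B : ESet n} (h : e ∉ A ∆ B) :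
    e ∈ B ↔ e ∈ A := by
  rw [mem_symmDiff, not_or, not_and, not_and, not_not, not_not] at h
  exact ⟨h.2, h.1⟩

theorem bad_perturb {X Y X' Y' : ESet n} {T : Trans n} (hT : Invol T) :
    (bad X' Y' T).card ≤ (bad X Y T).card + 4 * ((X' ∆ X).card + (Y' ∆ Y).card) := by
  set E := (X' ∆ X) ∪ (Y' ∆ Y) with hE
  set D2 : Finset (Fin n × Fin n) := (darts E).image fun p => (p.1, T p.1 p.2) with hD2
  have hsub : bad X' Y' T ⊆ bad X Y T ∪ (darts E ∪ D2) := by
    intro p hp
    obtain ⟨v, u⟩ := p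
    by_contra hno
    simp only [mem_union, not_or] at hno
    obtain ⟨h1, h2, h3⟩ := hno
    have h4 : s(v, T v u) ∉ E := fun h => h3 (mem_image.2 ⟨(v, T v u),
      mem_filter.2 ⟨mem_univ _, h⟩, by simp [hT v u]⟩)
    have h5 : s(v, u) ∉ E := fun h => h2 (mem_filter.2 ⟨mem_univ _, h⟩)
    have key : ∀ w, s(v, w) ∉ E → col X Y v w = col X' Y' v w := by
      intro w hw
      rw [hE, mem_union, not_or] at hw
      exact col_congr (mem_iff_of_notMem_symmDiff hw.1) (mem_iff_of_notMem_symmDiff hw.2)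
    simp only [bad, mem_filter, mem_univ, true_and, not_not] at hp h1
    unfold GoodAt at hp h1
    rw [key _ h5, key _ h4] at h1
    exact hp h1
  have e1 := (card_le_card hsub).trans (card_union_le _ _)
  have e2 : (darts E ∪ D2).card ≤ (darts E).card + (darts E).card :=
    (card_union_le _ _).trans (add_le_add le_rfl card_image_le)
  have e3 := card_darts E
  have e4 : E.card ≤ (X' ∆ X).card + (Y' ∆ Y).card := card_union_le _ _
  omega

/-- Triples through `a`, weighted by the inverse number of transition systems. -/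
noncomputable def load (a : Omega d) : ℝ :=
  ∑ G : Omega d, ∑ H : Omega d, ∑ T ∈ (valid (edg G.1) (edg H.1)).filter
    (fun T => a ∈ niceSet G H T), 1 / ((valid (edg G.1) (edg H.1)).card : ℝ)

theorem encode (hPF : PairingFacts) {j : ℕ}
    (hj : ∀ (n : ℕ) (d : Fin n → ℕ) (X Y X' Y' : ESet n), 2 ≤ n → Realizes d X →
      Realizes d Y → Realizes d X' → Realizes d Y' → ((X ∆ Y) ∆ (X' ∆ Y')).card ≤ 16 →
      (valid X' Y').card ≤ n ^ j * (valid X Y).card) (hn : 2 ≤ n) (a : Omega d) :
    load a ≤ (Fintype.card (Code n) : ℝ) * (n : ℝ) ^ j * (Fintype.card (Omega d) : ℝ) := by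
  set tri : Finset (Omega d × Omega d × Trans n) := univ.filter fun z =>
    z.2.2 ∈ valid (edg z.1.1) (edg z.2.1.1) ∧ a ∈ niceSet z.1 z.2.1 z.2.2 with htri
  set w : Omega d × Omega d × Trans n → ℝ := fun z =>
    1 / ((valid (edg z.1.1) (edg z.2.1.1)).card : ℝ) with hw
  have hload : load a = ∑ z ∈ tri, w z := by
    simp only [load, htri, sum_filter, Fintype.sum_prod_type]
    refine sum_congr rfl fun G _ => sum_congr rfl fun H _ => ?_
    simp only [ite_and, Finset.sum_ite_mem, univ_inter, hw]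
  set w' : Code n × Omega d × Trans n → ℝ := fun y =>
    if y.2.2 ∈ valid (edg a.1) (edg y.2.1.1) then
      (n : ℝ) ^ j / ((valid (edg a.1) (edg y.2.1.1)).card : ℝ) else 0 with hw'
  -- the relation between a triple and its code
  let Rel : Omega d × Omega d × Trans n → Code n × Omega d × Trans n → Prop := fun z y =>
    edg z.1.1 = state z.2.2 (edg z.1.1) (edg z.1.1 ∆ edg z.2.1.1) y.1.1.1 y.1.1.2.1 y.1.1.2.2.1
        y.1.1.2.2.2.1 ∆
      (done z.2.2 (edg z.1.1 ∆ edg z.2.1.1) y.1.1.1 ∪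
        seg z.2.2 y.1.1.2.1 y.1.1.2.2.1 y.1.1.2.2.2.1) ∧
    state z.2.2 (edg z.1.1) (edg z.1.1 ∆ edg z.2.1.1) y.1.1.1 y.1.1.2.1 y.1.1.2.2.1
        y.1.1.2.2.2.1 = edg a.1 ∆ decode y.1.1.2.2.2.2 ∧
    edg z.1.1 ∆ edg z.2.1.1 =
      (edg a.1 ∆ decode y.1.1.2.2.2.2) ∆ (edg y.2.1.1 ∆ decode y.1.2.1) ∧
    (∀ v u x, (v, u, x) ∈ decode y.1.2.2 → z.2.2 v u = x) ∧
    (∀ v u, (∀ x, (v, u, x) ∉ decode y.1.2.2) → z.2.2 v u = y.2.2 v u) ∧
    y.2.2 ∈ valid (edg a.1) (edg y.2.1.1) ∧ w z ≤ w' y
  have hex : ∀ z ∈ tri, ∃ y, Rel z y := by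
    rintro ⟨G, H, T⟩ hz
    obtain ⟨hT, ha⟩ := (mem_filter.1 hz).2
    obtain ⟨c, d₀, p, q, N, hc, hp, hq, -, hN, hE1, hE2, hB⟩ := (mem_filter.1 ha).2
    obtain ⟨b, rfl⟩ := exists_of_realizes hN
    set D := edg G.1 ∆ edg H.1 with hD
    set S := state T (edg G.1) D c d₀ p q with hS
    obtain ⟨h1, hh1⟩ := exists_code (k := 8) (S := edg a.1 ∆ S) hE1
    obtain ⟨h2, hh2⟩ := exists_code (k := 8) (S := edg b.1 ∆ (S ∆ D)) hE2
    have hinv : Invol T := (mem_filter.1 hT).2.1
    obtain ⟨T', hT', hfix⟩ := hPF.2.2 n d (edg a.1) (edg b.1) T (realizes_edg a) (realizes_edg b)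
      hinv
    set Bd := bad (edg a.1) (edg b.1) T with hBd
    have hBd72 : (Bd.image fun p => (p.1, p.2, T p.1 p.2)).card ≤ fixes := by
      refine card_image_le.trans ((bad_perturb (X := S) (Y := S ∆ D) hinv).trans ?_)
      simp only [fixes, edit] at *
      omega
    obtain ⟨h3, hh3⟩ := exists_code hBd72
    refine ⟨(((⟨c, by omega⟩, d₀, ⟨p, by omega⟩, ⟨q, by omega⟩, h1), h2, h3), b, T'),
      ?_, ?_, ?_, ?_, ?_, hT', ?_⟩
    · simp only [state, symmDiff_symmDiff_cancel_right]
    · show S = edg a.1 ∆ decode h1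
      rw [hh1, symmDiff_symmDiff_cancel_left]
    · show D = (edg a.1 ∆ decode h1) ∆ (edg b.1 ∆ decode h2)
      rw [hh1, hh2, symmDiff_symmDiff_cancel_left, symmDiff_symmDiff_cancel_left,
        symmDiff_symmDiff_cancel_left]
    · intro v u x hx
      simp only [hh3, mem_image] at hx
      obtain ⟨⟨v', u'⟩, -, he⟩ := hx
      simp only [Prod.mk.injEq] at he
      obtain ⟨rfl, rfl, rfl⟩ := he
      rfl
    · intro v u hno
      refine (hfix v u fun hmem => hno (T v u) ?_).symm
      show (v, u, T v u) ∈ decode h3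
      rw [hh3]
      exact mem_image.2 ⟨(v, u), hmem, rfl⟩
    · have hcount : (valid (edg a.1) (edg b.1)).card
          ≤ n ^ j * (valid (edg G.1) (edg H.1)).card := by
        refine hj n d _ _ _ _ hn (realizes_edg G) (realizes_edg H) (realizes_edg a)
          (realizes_edg b) ?_
        have e : D ∆ (edg a.1 ∆ edg b.1) = (edg a.1 ∆ S) ∆ (edg b.1 ∆ (S ∆ D)) := by
          simp only [symmDiff_assoc, symmDiff_left_comm S (edg b.1), symmDiff_symmDiff_cancel_left]
          rw [symmDiff_comm D, symmDiff_assoc]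
        rw [← hD, e]
        refine (card_le_card symmDiff_subset_union).trans ((card_union_le _ _).trans ?_)
        simp only [edit] at hE1 hE2
        omega
      simp only [hw, hw', if_pos hT']
      have hv1 : (0 : ℝ) < (valid (edg G.1) (edg H.1)).card := by
        exact_mod_cast card_pos.2 ⟨T, hT⟩
      have hv2 : (0 : ℝ) < (valid (edg a.1) (edg b.1)).card := by
        exact_mod_cast card_pos.2 ⟨T', hT'⟩
      rw [div_le_div_iff₀ hv1 hv2, one_mul]
      exact_mod_cast hcount
  rcases tri.eq_empty_or_nonempty with h0 | ⟨z₀, hz₀⟩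
  · rw [hload, h0, sum_empty]; positivity
  obtain ⟨y₀, -⟩ := hex z₀ hz₀
  let φ : Omega d × Omega d × Trans n → Code n × Omega d × Trans n := fun z =>
    if h : ∃ y, Rel z y then h.choose else y₀
  have hφ : ∀ z ∈ tri, Rel z (φ z) := by
    intro z hz
    simp only [φ, dif_pos (hex z hz)]
    exact (hex z hz).choose_spec
  have hinj : Set.InjOn φ (tri : Set (Omega d × Omega d × Trans n)) := by
    rintro ⟨G, H, T⟩ hz ⟨G', H', T'⟩ hz' he
    obtain ⟨a1, a2, a3, a4, a5, -, -⟩ := hφ _ hz
    obtain ⟨b1, b2, b3, b4, b5, -, -⟩ := hφ _ hz'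
    rw [← he] at b1 b2 b3 b4 b5
    have hT : T = T' := by
      funext v; ext u
      by_cases h : ∃ x, (v, u, x) ∈ decode (φ (G, H, T)).1.2.2
      · obtain ⟨x, hx⟩ := h
        have e1 := a4 v u x hx
        have e2 := b4 v u x hx
        simp only at e1 e2
        rw [e1, e2]
      · push Not at h
        have e1 := a5 v u h
        have e2 := b5 v u h
        simp only at e1 e2
        rw [e1, e2]
    subst hT
    simp only at a1 a2 a3 b1 b2 b3
    have hD : edg G.1 ∆ edg H.1 = edg G'.1 ∆ edg H'.1 := a3.trans b3.symm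
    have hG : edg G.1 = edg G'.1 := by rw [a1, a2, b1, b2, hD]
    have hH : edg H.1 = edg H'.1 := by
      have := congrArg (edg G.1 ∆ ·) hD
      simp only [symmDiff_symmDiff_cancel_left] at this
      rw [this, hG, symmDiff_symmDiff_cancel_left]
    rw [edg_injective hG, edg_injective hH]
  have hw'0 : ∀ y, 0 ≤ w' y := fun y => by
    simp only [hw']; split_ifs <;> positivity
  calc load a = ∑ z ∈ tri, w z := hload
    _ ≤ ∑ z ∈ tri, w' (φ z) := sum_le_sum fun z hz => (hφ z hz).2.2.2.2.2.2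
    _ = ∑ y ∈ tri.image φ, w' y := (sum_image hinj).symm
    _ ≤ ∑ y, w' y := sum_le_sum_of_subset_of_nonneg (subset_univ _) fun y _ _ => hw'0 y
    _ = _ := by
      have hone : ∀ b : Omega d, ∑ T : Trans n, (if T ∈ valid (edg a.1) (edg b.1) then
          (n : ℝ) ^ j / ((valid (edg a.1) (edg b.1)).card : ℝ) else 0) = (n : ℝ) ^ j := by
        intro b
        have hne : (valid (edg a.1) (edg b.1)).Nonempty :=
          hPF.1 n d _ _ (realizes_edg a) (realizes_edg b)
        have : ((valid (edg a.1) (edg b.1)).card : ℝ) ≠ 0 := by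
          exact_mod_cast hne.card_pos.ne'
        rw [Finset.sum_ite_mem, univ_inter, sum_const, nsmul_eq_mul]
        field_simp
      simp only [hw', Fintype.sum_prod_type (α₁ := Code n), Fintype.sum_prod_type (α₁ := Omega d)]
      simp only [hone, sum_const, card_univ, nsmul_eq_mul]
      ring

theorem card_sym2_le (n : ℕ) : Fintype.card (Option (Sym2 (Fin n))) ≤ n * n + 1 := by
  rw [Fintype.card_option]
  have h := Fintype.card_le_of_surjective (fun p : Fin n × Fin n => s(p.1, p.2)) fun e => by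
    induction e using Sym2.ind with
    | h a b => exact ⟨(a, b), rfl⟩
  rw [Fintype.card_prod, Fintype.card_fin] at h
  omega

theorem card_code_le (n : ℕ) : Fintype.card (Code n) ≤ (4 * (n ^ 4 + 1)) ^ 100 := by
  set N := 4 * (n ^ 4 + 1) with hN
  have h1 : n * n ≤ n ^ 4 := by
    rcases Nat.eq_zero_or_pos n with rfl | h
    · simp
    · calc n * n = n ^ 2 := (sq n).symm
        _ ≤ n ^ 4 := Nat.pow_le_pow_right h (by norm_num)
  have h3 : n * n * n ≤ n ^ 4 := by
    rcases Nat.eq_zero_or_pos n with rfl | h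
    · simp
    · calc n * n * n = n ^ 3 := by ring
        _ ≤ n ^ 4 := Nat.pow_le_pow_right h (by norm_num)
  have hn1 : n ≤ N := by
    have : n ≤ n ^ 4 := Nat.le_self_pow (by norm_num) n
    omega
  have hs : Fintype.card (Option (Sym2 (Fin n))) ≤ N := (card_sym2_le n).trans (by omega)
  have ho : Fintype.card (Option (Fin n × Fin n × Fin n)) ≤ N := by
    rw [Fintype.card_option, Fintype.card_prod, Fintype.card_prod, Fintype.card_fin, ← mul_assoc]
    omega
  have hpow : ∀ (α : Type) [Fintype α] (k : ℕ), Fintype.card α ≤ N →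
      Fintype.card (Fin k → α) ≤ N ^ k := fun α _ k h => by
    rw [Fintype.card_fun, Fintype.card_fin]; exact Nat.pow_le_pow_left h k
  have hPos : Fintype.card (Pos n) ≤ N * (N * N * (N * (N * N ^ 8))) := by
    rw [Fintype.card_prod, Fintype.card_prod, Fintype.card_prod, Fintype.card_prod,
      Fintype.card_prod]
    simp only [Fintype.card_fin (n * n + 1), Fintype.card_fin n,
      Fintype.card_fin (3 * (n * n) + 1)]
    exact Nat.mul_le_mul (by omega) (Nat.mul_le_mul (Nat.mul_le_mul hn1 hn1)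
      (Nat.mul_le_mul (by omega) (Nat.mul_le_mul (by omega) (hpow _ 8 hs))))
  calc Fintype.card (Code n)
      ≤ N * (N * N * (N * (N * N ^ 8))) * (N ^ 8 * N ^ 72) := by
        rw [Fintype.card_prod (Pos n), Fintype.card_prod (Fin 8 → Option (Sym2 (Fin n)))]
        exact Nat.mul_le_mul hPos (Nat.mul_le_mul (hpow _ 8 hs) (hpow _ fixes ho))
    _ = N ^ 93 := by ring
    _ ≤ N ^ 100 := Nat.pow_le_pow_right (by omega) (by norm_num)

theorem final_mul {c A P P' l p q : ℝ} (hc : c ≤ A) (hP : P ≤ P') (hc0 : 0 ≤ c) (hl : 0 ≤ l)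
    (hp : 0 ≤ p) (hq : 0 ≤ q) (hA : 0 ≤ A) (hP0 : 0 ≤ P) :
    c * p * q * (A * P * l) ≤ A * p * q * (A * P' * l) :=
  mul_le_mul (mul_le_mul_of_nonneg_right (mul_le_mul_of_nonneg_right hc hp) hq)
    (mul_le_mul_of_nonneg_right (mul_le_mul_of_nonneg_left hP hA) hl)
    (mul_nonneg (mul_nonneg hA hP0) hl) (mul_nonneg (mul_nonneg hA hp) hq)

/-- Module C3. -/
theorem encodingBound : EncodingBound := by
  intro hPE hPF
  obtain ⟨j, hj⟩ := hPF.2.1 16
  refine ⟨8 * edit, (2 : ℝ) ^ 64 * 8 ^ 200, 2 * (8 * edit) + (400 + 400) + j, fun n hn d f => ?_⟩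
  have hn1 : (1 : ℝ) ≤ n := by exact_mod_cast le_trans (by norm_num) hn
  set K : ℝ := ((8 : ℝ) ^ 100 * (n : ℝ) ^ 400) * ((n : ℝ) ^ 2 + 1) ^ (8 * edit) with hK
  have hcodeR : (Fintype.card (Code n) : ℝ) ≤ (8 : ℝ) ^ 100 * (n : ℝ) ^ 400 := by
    calc (Fintype.card (Code n) : ℝ) ≤ (4 * ((n : ℝ) ^ 4 + 1)) ^ 100 := by
          exact_mod_cast card_code_le n
      _ ≤ (8 * (n : ℝ) ^ 4) ^ 100 := by
          have : (1 : ℝ) ≤ (n : ℝ) ^ 4 := one_le_pow₀ hn1
          exact pow_le_pow_left₀ (by positivity) (by linarith) _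
      _ = _ := by rw [mul_pow, ← pow_mul]
  have hpos : ∀ G H : Omega d, ∀ T, ((niceSet G H T).card : ℝ) ≤ (8 : ℝ) ^ 100 * (n : ℝ) ^ 400 := by
    intro G H T
    refine le_trans ?_ hcodeR
    refine Nat.cast_le.2 ((card_niceSet G H T).trans ?_)
    exact Fintype.card_le_of_injective (fun z => (z, fun _ => none, fun _ => none))
      fun z z' h => (Prod.mk.injEq _ _ _ _ ▸ h).1
  set loc : Omega d → ℝ := fun a =>
    ∑ b : Omega d, (if dist a.1 b.1 ≤ 8 * edit then (f a - f b) ^ 2 else 0) with hloc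
  have hloc0 : ∀ a, 0 ≤ loc a := fun a => sum_nonneg fun b _ => by split_ifs <;> positivity
  have hstep : ∀ G H : Omega d, (f G - f H) ^ 2 ≤
      ∑ T ∈ valid (edg G.1) (edg H.1), ∑ a ∈ niceSet G H T,
        1 / ((valid (edg G.1) (edg H.1)).card : ℝ) * (K * loc a) := by
    intro G H
    have hne := hPF.1 n d _ _ (realizes_edg G) (realizes_edg H)
    have hv : ((valid (edg G.1) (edg H.1)).card : ℝ) ≠ 0 := by exact_mod_cast hne.card_pos.ne'
    calc (f G - f H) ^ 2 = ∑ T ∈ valid (edg G.1) (edg H.1),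
          1 / ((valid (edg G.1) (edg H.1)).card : ℝ) * (f G - f H) ^ 2 := by
          rw [sum_const, nsmul_eq_mul]; field_simp
      _ ≤ _ := by
          refine sum_le_sum fun T hT => ?_
          rw [← mul_sum]
          refine mul_le_mul_of_nonneg_left ?_ (by positivity)
          rw [← mul_sum]
          refine (pair_le hPE f G H hT).trans (mul_le_mul_of_nonneg_right ?_
            (sum_nonneg fun a _ => hloc0 a))
          exact mul_le_mul_of_nonneg_right (hpos G H T) (by positivity)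
  have hswap : ∑ G : Omega d, ∑ H : Omega d, ∑ T ∈ valid (edg G.1) (edg H.1),
        ∑ a ∈ niceSet G H T, 1 / ((valid (edg G.1) (edg H.1)).card : ℝ) * (K * loc a)
      = ∑ a : Omega d, load a * (K * loc a) := by
    simp only [load, sum_mul, sum_filter]
    rw [sum_comm (γ := Omega d) (α := Omega d)]
    rw [sum_comm]
    refine Eq.symm ?_
    rw [sum_comm]
    refine sum_congr rfl fun G _ => ?_
    rw [sum_comm]
    refine sum_congr rfl fun H _ => ?_
    rw [sum_comm]
    refine sum_congr rfl fun T _ => ?_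
    simp only [ite_mul, zero_mul, Finset.sum_ite_mem, univ_inter]
  have hbound : ((n : ℝ) ^ 2 + 1) ^ (8 * edit) ≤ 2 ^ 64 * (n : ℝ) ^ (2 * (8 * edit)) := by
    have : (1 : ℝ) ≤ (n : ℝ) ^ 2 := one_le_pow₀ hn1
    calc ((n : ℝ) ^ 2 + 1) ^ (8 * edit) ≤ (2 * (n : ℝ) ^ 2) ^ (8 * edit) := by gcongr; linarith
      _ = _ := by rw [mul_pow, ← pow_mul]; norm_num [edit]
  calc ∑ G : Omega d, ∑ H : Omega d, (f G - f H) ^ 2
      ≤ ∑ a : Omega d, load a * (K * loc a) := by
        rw [← hswap]; exact sum_le_sum fun G _ => sum_le_sum fun H _ => hstep G H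
    _ ≤ ∑ a : Omega d, (Fintype.card (Code n) : ℝ) * (n : ℝ) ^ j *
          (Fintype.card (Omega d) : ℝ) * (K * loc a) := by
        refine sum_le_sum fun a _ => mul_le_mul_of_nonneg_right (encode hPF hj (by omega) a) ?_
        exact mul_nonneg (by positivity) (hloc0 a)
    _ ≤ ∑ a : Omega d, ((8 : ℝ) ^ 100 * (n : ℝ) ^ 400) * (n : ℝ) ^ j *
          (Fintype.card (Omega d) : ℝ) *
          (((8 : ℝ) ^ 100 * (n : ℝ) ^ 400) * (2 ^ 64 * (n : ℝ) ^ (2 * (8 * edit))) * loc a) := by
        refine sum_le_sum fun a _ => ?_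
        rw [hK]
        exact final_mul hcodeR hbound (Nat.cast_nonneg _) (hloc0 a) (by positivity) (by positivity)
          (by positivity) (by positivity)
    _ = _ := by
        rw [← mul_sum, ← mul_sum]
        simp only [hloc]
        ring

end Vale.Agent.P335.Encoding

namespace Vale.Agent.P335

/-- Module C3. -/
theorem encodingBound : EncodingBound := Encoding.encodingBound

end Vale.Agent.P335
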