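import Mathlib
import Vale.Agent.P335.Defs

/-!
The switch chain in the literal form of the problem (uniform 4-set, uniform ordered pair of
distinct perfect matchings) and its identification with the quadruple form `P`.
-/

open Finset
open scoped Classical

namespace Vale.Agent.P335

variable {n : ℕ}

/-- The perfect matchings of the complete graph on the vertex set `S`. -/
noncomputable def perfectMatchings (S : Finset (Fin n)) : Finset (Finset (Sym2 (Fin n))) :=
  S.sym2.powerset.filter fun F => (∀ e ∈ F, ¬ e.IsDiag) ∧ ∀ v ∈ S, ∃! e, e ∈ F ∧ v ∈ e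

/-- One switch: if both edges of `F` are present and both edges of `F'` are absent, replace `F`
by `F'`; otherwise stay put. -/
noncomputable def switchMove (G : SimpleGraph (Fin n)) (F F' : Finset (Sym2 (Fin n))) :
    SimpleGraph (Fin n) :=
  if (∀ e ∈ F, e ∈ G.edgeSet) ∧ (∀ e ∈ F', e ∉ G.edgeSet) then
    SimpleGraph.fromEdgeSet ((G.edgeSet \ ↑F) ∪ ↑F')
  else G

/-- The switch chain: with probability `1/2` stay put; otherwise choose a 4-element set `S`
uniformly, then one of the six ordered pairs of distinct perfect matchings of `S` uniformly. -/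
noncomputable def switchChain (d : Fin n → ℕ) : Matrix (Omega d) (Omega d) ℝ :=
  Matrix.of fun G H => (if G = H then (1 / 2 : ℝ) else 0) +
    (1 / 2) * ∑ S ∈ powersetCard 4 (univ : Finset (Fin n)),
      ∑ p ∈ (perfectMatchings S).offDiag,
        (if switchMove G.1 p.1 p.2 = H.1 then 1 / (6 * (n.choose 4 : ℝ)) else 0)

/-- The mixing time: the least `t` at which the law from every start is within total variation
distance `1/4` of the uniform distribution. -/
noncomputable def mixingTime (d : Fin n → ℕ) : ℕ :=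
  sInf {t : ℕ | ∀ G : Omega d, (1 / 2) * ∑ H : Omega d,
    |(switchChain d ^ t) G H - 1 / (Fintype.card (Omega d) : ℝ)| ≤ 1 / 4}

/-- The set and the ordered pair of matchings of an ordered quadruple. -/
noncomputable def quadPair (x : Fin 4 ↪ Fin n) :
    (_ : Finset (Fin n)) × (Finset (Sym2 (Fin n)) × Finset (Sym2 (Fin n))) :=
  ⟨univ.map x, {s(x 0, x 1), s(x 2, x 3)}, {s(x 0, x 2), s(x 1, x 3)}⟩

/-- The targets of `quadPair`. -/
noncomputable def targets (n : ℕ) :
    Finset ((_ : Finset (Fin n)) × (Finset (Sym2 (Fin n)) × Finset (Sym2 (Fin n)))) :=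
  (powersetCard 4 univ).sigma fun S => (perfectMatchings S).offDiag

lemma move_eq_switchMove (G : SimpleGraph (Fin n)) (x : Fin 4 ↪ Fin n) :
    move G x = switchMove G (quadPair x).2.1 (quadPair x).2.2 := by
  unfold move switchMove quadPair
  simp only [mem_insert, mem_singleton, forall_eq_or_imp, forall_eq, SimpleGraph.mem_edgeSet,
    coe_insert, coe_singleton, and_assoc]

lemma mem_matchings {a b c e : Fin n} (hab : a ≠ b) (hac : a ≠ c) (hae : a ≠ e) (hbc : b ≠ c)
    (hbe : b ≠ e) (hce : c ≠ e) :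
    ({s(a, b), s(c, e)} : Finset (Sym2 (Fin n))) ∈ perfectMatchings ({a, b, c, e} : Finset _) := by
  simp only [perfectMatchings, mem_filter, mem_powerset]
  refine ⟨?_, ?_, ?_⟩
  · intro f hf
    simp only [mem_insert, mem_singleton] at hf
    rcases hf with rfl | rfl <;> simp
  · intro f hf
    simp only [mem_insert, mem_singleton] at hf
    rcases hf with rfl | rfl <;> simp [hab, hce]
  · intro v hv
    simp only [mem_insert, mem_singleton] at hv
    rcases hv with rfl | rfl | rfl | rfl
    · exact ⟨s(v, b), by simp, fun f hf => by simp at hf; grind⟩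
    · exact ⟨s(a, v), by simp, fun f hf => by simp at hf; grind⟩
    · exact ⟨s(v, e), by simp, fun f hf => by simp at hf; grind⟩
    · exact ⟨s(c, v), by simp, fun f hf => by simp at hf; grind⟩

lemma quadPair_mem (x : Fin 4 ↪ Fin n) : quadPair x ∈ targets n := by
  have hne : ∀ i j : Fin 4, i ≠ j → x i ≠ x j := fun i j h => x.injective.ne h
  have hS : univ.map x = ({x 0, x 1, x 2, x 3} : Finset (Fin n)) := by
    ext v
    simp [Fin.exists_fin_succ, eq_comm]
  simp only [targets, mem_sigma, quadPair, mem_powersetCard, mem_offDiag]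
  refine ⟨⟨subset_univ _, by simp⟩, ?_, ?_, ?_⟩
  · rw [hS]
    exact mem_matchings (hne _ _ (by decide)) (hne _ _ (by decide)) (hne _ _ (by decide))
      (hne _ _ (by decide)) (hne _ _ (by decide)) (hne _ _ (by decide))
  · rw [hS, Finset.insert_comm (x 1) (x 2)]
    exact mem_matchings (hne _ _ (by decide)) (hne _ _ (by decide)) (hne _ _ (by decide))
      (hne _ _ (by decide)) (hne _ _ (by decide)) (hne _ _ (by decide))
  · intro h
    have hm : s(x 0, x 1) ∈ ({s(x 0, x 2), s(x 1, x 3)} : Finset (Sym2 (Fin n))) := by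
      rw [← h]; simp
    simp only [mem_insert, mem_singleton, Sym2.eq_iff] at hm
    have := hne 1 2 (by decide)
    have := hne 0 1 (by decide)
    have := hne 0 3 (by decide)
    have := hne 0 2 (by decide)
    grind

/-- The fixed pair of matchings of `Fin 4`. -/
def fourPair (σ : Equiv.Perm (Fin 4)) : Finset (Sym2 (Fin 4)) × Finset (Sym2 (Fin 4)) :=
  ({s(σ 0, σ 1), s(σ 2, σ 3)}, {s(σ 0, σ 2), s(σ 1, σ 3)})

lemma fourPair_fibre : (univ.filter fun σ => fourPair σ = fourPair 1).card = 4 := by decide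

lemma quadPair_fibre (x₀ : Fin 4 ↪ Fin n) :
    (univ.filter fun x => quadPair x = quadPair x₀).card = 4 := by
  refine Eq.trans (Finset.card_bij (s := univ.filter fun σ => fourPair σ = fourPair 1)
    (fun σ _ => σ.toEmbedding.trans x₀) ?_ ?_ ?_).symm fourPair_fibre
  · intro σ hσ
    simp only [mem_filter, mem_univ, true_and, fourPair, Prod.mk.injEq] at hσ ⊢
    obtain ⟨h1, h2⟩ := hσ
    have h1' := congrArg (Finset.image (Sym2.map x₀)) h1
    have h2' := congrArg (Finset.image (Sym2.map x₀)) h2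
    simp only [Finset.image_insert, Finset.image_singleton, Sym2.map_mk, Equiv.Perm.one_apply]
      at h1' h2'
    have hm : univ.map (σ.toEmbedding.trans x₀) = univ.map x₀ := by
      rw [← Finset.map_map, Finset.map_univ_equiv]
    simp only [quadPair, hm]
    simp [h1', h2']
  · intro σ₁ _ σ₂ _ h
    apply Equiv.ext
    intro i
    exact x₀.injective (congrFun (congrArg DFunLike.coe h) i)
  · intro x hx
    simp only [mem_filter, mem_univ, true_and, quadPair, Sigma.mk.injEq, heq_eq_eq] at hx
    obtain ⟨hS, hp⟩ := hx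
    have : ∀ i, ∃ j, x₀ j = x i := fun i => by
      have h : x i ∈ univ.map x₀ := by rw [← hS]; simp
      simpa using h
    choose σ hσ using this
    have hinj : Function.Injective σ := fun i j h => x.injective (by rw [← hσ i, h, hσ j])
    refine ⟨Equiv.ofBijective σ hinj.bijective_of_finite, ?_, ?_⟩
    · simp only [mem_filter, mem_univ, true_and, fourPair, Prod.mk.injEq, Equiv.ofBijective_apply,
        Equiv.Perm.one_apply]
      simp only [Prod.mk.injEq] at hp
      have inj := Finset.image_injective (Sym2.map.injective x₀.injective)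
      constructor <;> apply inj <;>
        simp only [Finset.image_insert, Finset.image_singleton, Sym2.map_mk, hσ]
      · exact hp.1
      · exact hp.2
    · exact Function.Embedding.ext hσ

lemma vec4_injective {p q r s : Fin n} (h1 : p ≠ q) (h2 : p ≠ r) (h3 : p ≠ s) (h4 : q ≠ r)
    (h5 : q ≠ s) (h6 : r ≠ s) : Function.Injective ![p, q, r, s] := by
  intro i j h
  fin_cases i <;> fin_cases j <;> simp_all

lemma mk_quad {p q r s : Fin n} {S : Finset (Fin n)} {F F' : Finset (Sym2 (Fin n))}
    (h1 : p ≠ q) (h2 : p ≠ r) (h3 : p ≠ s) (h4 : q ≠ r) (h5 : q ≠ s) (h6 : r ≠ s)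
    (hS : S = {p, q, r, s}) (hF : F = {s(p, q), s(r, s)}) (hF' : F' = {s(p, r), s(q, s)}) :
    ∃ x : Fin 4 ↪ Fin n, quadPair x = ⟨S, F, F'⟩ := by
  refine ⟨⟨![p, q, r, s], vec4_injective h1 h2 h3 h4 h5 h6⟩, ?_⟩
  subst hS hF hF'
  unfold quadPair
  rw [Sigma.mk.injEq]
  refine ⟨?_, heq_of_eq rfl⟩
  ext v
  simp [Fin.exists_fin_succ, eq_comm]

lemma exists_quad {t : (_ : Finset (Fin n)) × (Finset (Sym2 (Fin n)) × Finset (Sym2 (Fin n)))}
    (ht : t ∈ targets n) : ∃ x : Fin 4 ↪ Fin n, quadPair x = t := by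
  obtain ⟨S, F, F'⟩ := t
  simp only [targets, mem_sigma, mem_powersetCard, mem_offDiag] at ht
  obtain ⟨⟨-, hS⟩, hF, hF', hne⟩ := ht
  simp only [perfectMatchings, mem_filter, mem_powerset] at hF hF'
  have inS : ∀ {K : Finset (Sym2 (Fin n))}, K ⊆ S.sym2 → ∀ {u v}, s(u, v) ∈ K → u ∈ S ∧ v ∈ S :=
    fun hK _ _ h => Finset.mk_mem_sym2_iff.mp (hK h)
  have partner : ∀ {K : Finset (Sym2 (Fin n))},
      (∀ e ∈ K, ¬ e.IsDiag) → (∀ v ∈ S, ∃! e, e ∈ K ∧ v ∈ e) → ∀ v ∈ S,
      ∃ w, s(v, w) ∈ K ∧ w ≠ v := by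
    intro K hd hu v hv
    obtain ⟨f, ⟨hf, hvf⟩, -⟩ := hu v hv
    refine ⟨Sym2.Mem.other hvf, by rwa [Sym2.other_spec hvf], ?_⟩
    exact Sym2.other_ne (hd f hf) hvf
  have uniq : ∀ {K : Finset (Sym2 (Fin n))}, (∀ v ∈ S, ∃! e, e ∈ K ∧ v ∈ e) → ∀ {v}, v ∈ S →
      ∀ {f g}, f ∈ K → g ∈ K → v ∈ f → v ∈ g → f = g :=
    fun hu _ hv _ _ hf hg h1 h2 => (hu _ hv).unique ⟨hf, h1⟩ ⟨hg, h2⟩
  obtain ⟨a, ha⟩ : S.Nonempty := Finset.card_pos.mp (by omega)
  obtain ⟨b, hab, hba⟩ := partner hF.2.1 hF.2.2 a ha
  have hb := (inS hF.1 hab).2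
  obtain ⟨c, hc, hcab⟩ : ∃ c ∈ S, c ∉ ({a, b} : Finset (Fin n)) :=
    Finset.exists_mem_notMem_of_card_lt_card (by
      have := Finset.card_le_two (a := a) (b := b)
      omega)
  simp only [mem_insert, mem_singleton, not_or] at hcab
  obtain ⟨e, hce, hec⟩ := partner hF.2.1 hF.2.2 c hc
  have he := (inS hF.1 hce).2
  have hea : e ≠ a := by
    rintro rfl
    have := uniq hF.2.2 he hce hab (by simp) (by simp)
    simp only [Sym2.eq_iff] at this
    grind
  have heb : e ≠ b := by
    rintro rfl
    have := uniq hF.2.2 he hce hab (by simp) (by simp)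
    simp only [Sym2.eq_iff] at this
    grind
  have hSeq : S = {a, b, c, e} := by
    refine (Finset.eq_of_subset_of_card_le ?_ ?_).symm
    · intro z hz
      simp only [mem_insert, mem_singleton] at hz
      rcases hz with rfl | rfl | rfl | rfl <;> assumption
    · rw [hS, Finset.card_insert_of_notMem (by simp; grind),
        Finset.card_insert_of_notMem (by simp; grind), Finset.card_pair hec.symm]
  have eqK : ∀ {K : Finset (Sym2 (Fin n))} {p q r s : Fin n}, S = {p, q, r, s} → K ⊆ S.sym2 →
      (∀ v ∈ S, ∃! e, e ∈ K ∧ v ∈ e) → s(p, q) ∈ K → s(r, s) ∈ K →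
      K = {s(p, q), s(r, s)} := by
    intro K p q r s hK1 hK2 hu h1 h2
    ext f
    constructor
    · intro hf
      induction f with
      | h u v =>
        have huS := (inS hK2 hf).1
        simp only [mem_insert, mem_singleton]
        have : u = p ∨ u = q ∨ u = r ∨ u = s := by
          have h := huS
          rw [hK1] at h
          simpa using h
        rcases this with rfl | rfl | rfl | rfl
        · exact Or.inl (uniq hu huS hf h1 (by simp) (by simp))
        · exact Or.inl (uniq hu huS hf h1 (by simp) (by simp))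
        · exact Or.inr (uniq hu huS hf h2 (by simp) (by simp))
        · exact Or.inr (uniq hu huS hf h2 (by simp) (by simp))
    · intro hf
      simp only [mem_insert, mem_singleton] at hf
      rcases hf with rfl | rfl <;> assumption
  have hFeq := eqK hSeq hF.1 hF.2.2 hab hce
  obtain ⟨a', haa', ha'⟩ := partner hF'.2.1 hF'.2.2 a ha
  have ha'S := (inS hF'.1 haa').2
  -- the third pair at a vertex not matched to `a`
  have other : ∀ {p q r s : Fin n}, S = {p, q, r, s} → p ≠ q → p ≠ r → q ≠ r → q ≠ s →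
      s(p, r) ∈ F' → s(q, s) ∈ F' := by
    intro p q r s hK hpq hpr hqr hqs h
    have hq : q ∈ S := by rw [hK]; simp
    obtain ⟨w, hw, hwq⟩ := partner hF'.2.1 hF'.2.2 q hq
    have hwS := (inS hF'.1 hw).2
    have h4 : w = p ∨ w = q ∨ w = r ∨ w = s := by
      have h' := hwS
      rw [hK] at h'
      simpa using h'
    rcases h4 with rfl | rfl | rfl | rfl
    · have := uniq hF'.2.2 hwS hw h (by simp) (by simp)
      simp only [Sym2.eq_iff] at this
      grind
    · exact absurd rfl hwq
    · have := uniq hF'.2.2 hwS hw h (by simp) (by simp)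
      simp only [Sym2.eq_iff] at this
      grind
    · exact hw
  have mk : ∀ {p q r s : Fin n}, p ≠ q → p ≠ r → p ≠ s → q ≠ r → q ≠ s → r ≠ s →
      S = {p, q, r, s} → F = {s(p, q), s(r, s)} → F' = {s(p, r), s(q, s)} →
      ∃ x : Fin 4 ↪ Fin n, quadPair x = ⟨S, F, F'⟩ :=
    fun h1 h2 h3 h4 h5 h6 hS' hF0 hF0' => mk_quad h1 h2 h3 h4 h5 h6 hS' hF0 hF0'
  have h4 : a' = a ∨ a' = b ∨ a' = c ∨ a' = e := by
    have h := ha'S
    rw [hSeq] at h
    simpa using h
  have hab' : a ≠ b := hba.symm
  have hac : a ≠ c := Ne.symm hcab.1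
  have hbc : b ≠ c := Ne.symm hcab.2
  rcases h4 with rfl | rfl | rfl | rfl
  · exact absurd rfl ha'
  · exfalso
    apply hne
    have h2 : s(c, e) ∈ F' := by
      have hSeq' : S = {a, c, a', e} := by rw [hSeq, Finset.insert_comm a' c]
      exact other hSeq' hac hab' hbc.symm hec.symm haa'
    rw [hFeq, eqK hSeq hF'.1 hF'.2.2 haa' h2]
  · have h2 := other hSeq hab' hac hbc (Ne.symm heb) haa'
    have hSeq' : S = {a, a', b, e} := by rw [hSeq, Finset.insert_comm b a']
    exact mk hab' hac (Ne.symm hea) hbc (Ne.symm heb) hec.symm hSeq hFeq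
      (eqK hSeq' hF'.1 hF'.2.2 haa' h2)
  · have hSeq2 : S = {a, b, a', c} := by rw [hSeq, Finset.pair_comm c a']
    have h2 := other hSeq2 hab' (Ne.symm hea) (Ne.symm heb) hbc haa'
    have hSeq' : S = {a, a', b, c} := by rw [hSeq2, Finset.insert_comm b a']
    exact mk hab' (Ne.symm hea) hac (Ne.symm heb) hbc hec hSeq2
      (by rw [hFeq, Sym2.eq_swap (a := c) (b := a')]) (eqK hSeq' hF'.1 hF'.2.2 haa' h2)

lemma switchChain_eq_P (d : Fin n → ℕ) (hn : 4 ≤ n) : switchChain d = P d := by
  ext G H
  simp only [switchChain, P, Matrix.of_apply]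
  congr 1
  rw [mul_div_assoc]
  congr 1
  rw [← Finset.sum_sigma (powersetCard 4 univ) (fun S => (perfectMatchings S).offDiag)
    (fun t => if switchMove G.1 t.2.1 t.2.2 = H.1 then 1 / (6 * (n.choose 4 : ℝ)) else 0)]
  have hcount : ((univ.filter fun x : Fin 4 ↪ Fin n => move G.1 x = H.1).card) =
      4 * ((targets n).filter fun t => switchMove G.1 t.2.1 t.2.2 = H.1).card := by
    rw [Finset.card_eq_sum_card_fiberwise
      (t := (targets n).filter fun t => switchMove G.1 t.2.1 t.2.2 = H.1) (f := quadPair)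
      (fun x hx => by
        simp only [coe_filter, mem_univ, true_and, Set.mem_setOf_eq] at hx ⊢
        exact ⟨quadPair_mem x, by rw [← move_eq_switchMove]; exact hx⟩)]
    rw [Finset.sum_const_nat (m := 4), mul_comm]
    intro t ht
    simp only [mem_filter] at ht
    obtain ⟨x₀, rfl⟩ := exists_quad ht.1
    refine Eq.trans ?_ (quadPair_fibre x₀)
    congr 1
    ext x
    simp only [mem_filter, mem_univ, true_and]
    exact ⟨fun h => h.2, fun h => ⟨by rw [move_eq_switchMove, h]; exact ht.2, h⟩⟩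
  have hcard : Fintype.card (Fin 4 ↪ Fin n) = 24 * n.choose 4 := by
    rw [Fintype.card_embedding_eq, Fintype.card_fin, Fintype.card_fin,
      Nat.descFactorial_eq_factorial_mul_choose]
    rfl
  rw [hcount, hcard, Finset.sum_ite, Finset.sum_const_zero, add_zero, Finset.sum_const,
    nsmul_eq_mul]
  have hpos : (0 : ℝ) < n.choose 4 := by exact_mod_cast Nat.choose_pos hn
  push_cast
  unfold targets
  field_simp
  ring

end Vale.Agent.P335
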