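import Mathlib
import Vale.Agent.P335.CDefs

/-!
Module C2: facts about transition systems.
-/

open Finset
open scoped Classical symmDiff

namespace Vale.Agent.P335

variable {n : ℕ}

/-- A local pairing for the colouring `c`. -/
def LocPair (c : Fin n → Fin 3) (π : Equiv.Perm (Fin n)) : Prop :=
  (∀ u, π (π u) = u) ∧ ∀ u, c (π u) = opp (c u) ∧ (c u = 2 → π u = u)

lemma fin3_cases (x : Fin 3) : x = 0 ∨ x = 1 ∨ x = 2 := by fin_cases x <;> simp

lemma opp_opp (x : Fin 3) : opp (opp x) = x := by fin_cases x <;> rfl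

/-- The number of local pairings. -/
lemma card_locPair (c : Fin n → Fin 3)
    (hbal : (univ.filter fun u => c u = 0).card = (univ.filter fun u => c u = 1).card) :
    (univ.filter fun π => LocPair c π).card =
      Nat.factorial (univ.filter fun u => c u = 0).card := by
  let R := {u : Fin n // c u = 0}
  let B := {u : Fin n // c u = 1}
  have hcard : Fintype.card R = Fintype.card B := by
    simp only [R, B, Fintype.card_subtype]; exact hbal
  let toE : {π // LocPair c π} → (R ≃ B) := fun π =>
    { toFun := fun u => ⟨π.1 u.1, by rw [(π.2.2 u.1).1, u.2]; rfl⟩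
      invFun := fun u => ⟨π.1 u.1, by rw [(π.2.2 u.1).1, u.2]; rfl⟩
      left_inv := fun u => Subtype.ext (π.2.1 u.1)
      right_inv := fun u => Subtype.ext (π.2.1 u.1) }
  let f : (R ≃ B) → Fin n → Fin n := fun e u =>
    if h : c u = 0 then (e ⟨u, h⟩).1 else if h' : c u = 1 then (e.symm ⟨u, h'⟩).1 else u
  have f0 : ∀ (e : R ≃ B) (u : R), f e u.1 = (e u).1 := fun e u => dif_pos u.2
  have f1 : ∀ (e : R ≃ B) (u : B), f e u.1 = (e.symm u).1 := fun e u => by
    simp only [f]
    rw [dif_neg (by rw [u.2]; decide), dif_pos u.2]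
  have f2 : ∀ (e : R ≃ B) u, c u = 2 → f e u = u := fun e u h => by
    simp [f, h]
  have finv : ∀ e u, f e (f e u) = u := by
    intro e u
    rcases fin3_cases (c u) with h | h | h
    · rw [f0 e ⟨u, h⟩, f1 e (e ⟨u, h⟩), Equiv.symm_apply_apply]
    · rw [f1 e ⟨u, h⟩, f0 e (e.symm ⟨u, h⟩), Equiv.apply_symm_apply]
    · rw [f2 e u h, f2 e u h]
  let ofE : (R ≃ B) → {π // LocPair c π} := fun e =>
    ⟨⟨f e, f e, finv e, finv e⟩, finv e, fun u => by
      show c (f e u) = opp (c u) ∧ (c u = 2 → f e u = u)
      refine ⟨?_, f2 e u⟩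
      rcases fin3_cases (c u) with h | h | h
      · rw [f0 e ⟨u, h⟩, (e ⟨u, h⟩).2, h]; rfl
      · rw [f1 e ⟨u, h⟩, (e.symm ⟨u, h⟩).2, h]; rfl
      · rw [f2 e u h, h]; rfl⟩
  have h1 : ∀ π, ofE (toE π) = π := by
    intro π
    apply Subtype.ext
    apply Equiv.ext
    intro u
    show f (toE π) u = π.1 u
    rcases fin3_cases (c u) with h | h | h
    · rw [f0 _ ⟨u, h⟩]; rfl
    · rw [f1 _ ⟨u, h⟩]; rfl
    · rw [f2 _ u h, (π.2.2 u).2 h]
  have h2 : ∀ e, toE (ofE e) = e := by
    intro e
    apply Equiv.ext
    intro u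
    exact Subtype.ext (f0 e u)
  let E : {π // LocPair c π} ≃ (R ≃ B) := ⟨toE, ofE, h1, h2⟩
  rw [← Fintype.card_subtype, Fintype.card_congr E,
    Fintype.card_equiv (Fintype.equivOfCardEq hcard), Fintype.card_subtype]

lemma card_valid_prod (X Y : ESet n) :
    (valid X Y).card = ∏ v, (univ.filter fun π => LocPair (col X Y v) π).card := by
  rw [← Fintype.card_piFinset]
  congr 1
  apply Finset.ext
  intro T
  rw [Fintype.mem_piFinset]
  unfold valid
  rw [Finset.mem_filter]
  constructor
  · intro h v
    rw [Finset.mem_filter]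
    exact ⟨Finset.mem_univ _, h.2.1 v, h.2.2 v⟩
  · intro h
    exact ⟨Finset.mem_univ _, fun v => (Finset.mem_filter.mp (h v)).2.1,
      fun v => (Finset.mem_filter.mp (h v)).2.2⟩

lemma col_zero_iff (X Y : ESet n) (v u : Fin n) :
    col X Y v u = 0 ↔ s(v, u) ∈ X ∧ s(v, u) ∉ Y := by
  unfold col; split_ifs <;> simp_all

lemma col_one_iff (X Y : ESet n) (v u : Fin n) :
    col X Y v u = 1 ↔ s(v, u) ∈ Y ∧ s(v, u) ∉ X := by
  unfold col; split_ifs <;> simp_all

lemma balanced {d : Fin n → ℕ} {X Y : ESet n} (hX : Realizes d X) (hY : Realizes d Y)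
    (v : Fin n) :
    (univ.filter fun u => col X Y v u = 0).card = (univ.filter fun u => col X Y v u = 1).card := by
  have h := (hX.2 v).trans (hY.2 v).symm
  unfold degE at h
  rw [← Finset.card_filter_add_card_filter_not (s := univ.filter fun u => s(v, u) ∈ X)
      (fun u => s(v, u) ∈ Y),
    ← Finset.card_filter_add_card_filter_not (s := univ.filter fun u => s(v, u) ∈ Y)
      (fun u => s(v, u) ∈ X)] at h
  simp only [Finset.filter_filter] at h
  simp only [col_zero_iff, col_one_iff]
  have e : (univ.filter fun u => s(v, u) ∈ X ∧ s(v, u) ∈ Y) =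
      (univ.filter fun u => s(v, u) ∈ Y ∧ s(v, u) ∈ X) := by
    ext u; simp [and_comm]
  rw [e] at h
  omega

lemma card_valid {d : Fin n → ℕ} {X Y : ESet n} (hX : Realizes d X) (hY : Realizes d Y) :
    (valid X Y).card = ∏ v, Nat.factorial (univ.filter fun u => col X Y v u = 0).card := by
  rw [card_valid_prod]
  exact Finset.prod_congr rfl fun v _ => card_locPair _ (balanced hX hY v)

lemma factorial_le (a b δ n : ℕ) (h : b ≤ a + δ) (hb : b ≤ n) (hn : 1 ≤ n) :
    Nat.factorial b ≤ Nat.factorial a * n ^ δ := by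
  induction δ generalizing b with
  | zero => simpa using Nat.factorial_le h
  | succ δ ih =>
    rcases Nat.lt_or_ge (a + δ) b with h' | h'
    · obtain ⟨b', rfl⟩ : ∃ b', b = b' + 1 := ⟨b - 1, by omega⟩
      rw [Nat.factorial_succ, pow_succ, mul_comm (n ^ δ) n, ← mul_left_comm]
      exact Nat.mul_le_mul hb (ih b' (by omega) (by omega))
    · refine le_trans (ih b h' hb) (Nat.mul_le_mul_left _ (Nat.pow_le_pow_right hn (by omega)))

lemma darts_le (D : ESet n) :
    ∑ v : Fin n, (univ.filter fun u => s(v, u) ∈ D).card ≤ 2 * D.card := by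
  have h : ∑ v : Fin n, (univ.filter fun u => s(v, u) ∈ D).card =
      (univ.filter fun p : Fin n × Fin n => s(p.1, p.2) ∈ D).card := by
    simp only [Finset.card_filter]
    rw [Fintype.sum_prod_type]
  rw [h]
  refine Finset.card_le_mul_card_image_of_maps_to (f := fun p : Fin n × Fin n => s(p.1, p.2))
    (t := D) (fun p hp => by simpa using hp) 2 (fun e _ => ?_)
  induction e with
  | h a b =>
    refine le_trans (Finset.card_le_card (t := {(a, b), (b, a)}) ?_) Finset.card_le_two
    rintro ⟨x, y⟩ hp
    simp only [mem_filter, Sym2.eq_iff] at hp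
    simp only [mem_insert, mem_singleton, Prod.mk.injEq]
    exact hp.2

theorem pairingFacts : PairingFacts := by
  refine ⟨?_, ?_, ?_⟩
  · intro n d X Y hX hY
    rw [← Finset.card_pos, card_valid hX hY]
    exact Finset.prod_pos fun v _ => Nat.factorial_pos _
  · intro R
    refine ⟨2 * R, ?_⟩
    intro n d X Y X' Y' hn hX hY hX' hY' hR
    rw [card_valid hX hY, card_valid hX' hY']
    set δ : Fin n → ℕ := fun v =>
      (univ.filter fun u => s(v, u) ∈ (X ∆ Y) ∆ (X' ∆ Y')).card with hδ
    have hv : ∀ v, (univ.filter fun u => col X' Y' v u = 0).card ≤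
        (univ.filter fun u => col X Y v u = 0).card + δ v := by
      intro v
      have b := balanced hX hY v
      have b' := balanced hX' hY' v
      have hs : (univ.filter fun u => col X' Y' v u = 0) ∪ (univ.filter fun u => col X' Y' v u = 1)
          ⊆ ((univ.filter fun u => col X Y v u = 0) ∪ (univ.filter fun u => col X Y v u = 1)) ∪
            (univ.filter fun u => s(v, u) ∈ (X ∆ Y) ∆ (X' ∆ Y')) := by
        intro u hu
        simp only [mem_union, mem_filter, mem_univ, true_and, col_zero_iff, col_one_iff,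
          Finset.mem_symmDiff] at hu ⊢
        tauto
      have h1 := (Finset.card_le_card hs).trans (Finset.card_union_le _ _)
      rw [Finset.card_union_of_disjoint (by
        rw [Finset.disjoint_filter]; intro u _ h; rw [h]; decide)] at h1
      have h2 := Finset.card_union_le (univ.filter fun u => col X Y v u = 0)
        (univ.filter fun u => col X Y v u = 1)
      simp only [hδ]
      omega
    calc ∏ v, Nat.factorial (univ.filter fun u => col X' Y' v u = 0).card
        ≤ ∏ v, Nat.factorial (univ.filter fun u => col X Y v u = 0).card * n ^ δ v :=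
          Finset.prod_le_prod' fun v _ => factorial_le _ _ _ _ (hv v)
            ((Finset.card_le_univ _).trans (by simp)) (by omega)
      _ = (∏ v, Nat.factorial (univ.filter fun u => col X Y v u = 0).card) * n ^ ∑ v, δ v := by
          rw [Finset.prod_mul_distrib, Finset.prod_pow_eq_pow_sum]
      _ ≤ _ := by
          rw [mul_comm (n ^ (2 * R))]
          refine Nat.mul_le_mul_left _ (Nat.pow_le_pow_right (by omega) ?_)
          have := darts_le ((X ∆ Y) ∆ (X' ∆ Y'))
          simp only [hδ]
          omega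
  · intro n d X Y T hX hY hT
    have loc : ∀ v, ∃ π, LocPair (col X Y v) π ∧
        ∀ u, GoodAt X Y T v u → π u = T v u := by
      intro v
      set c := col X Y v with hc
      have closed : ∀ u, GoodAt X Y T v u → GoodAt X Y T v (T v u) := by
        rintro u ⟨h1, h2⟩
        unfold GoodAt
        rw [hT v u, h1, opp_opp]
        refine ⟨rfl, fun h => ?_⟩
        have : col X Y v u = 2 := by
          have := congrArg opp h
          rwa [opp_opp] at this
        rw [h2 this]
      set A0 := univ.filter (fun u => ¬ GoodAt X Y T v u ∧ c u = 0) with hA0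
      set A1 := univ.filter (fun u => ¬ GoodAt X Y T v u ∧ c u = 1) with hA1
      have hgood : (univ.filter fun u => GoodAt X Y T v u ∧ c u = 0).card =
          (univ.filter fun u => GoodAt X Y T v u ∧ c u = 1).card := by
        refine Finset.card_bij' (fun u _ => T v u) (fun u _ => T v u) ?_ ?_ ?_ ?_
        · intro u hu
          simp only [mem_filter, mem_univ, true_and] at hu ⊢
          exact ⟨closed u hu.1, by rw [hc, hu.1.1, ← hc, hu.2]; rfl⟩
        · intro u hu
          simp only [mem_filter, mem_univ, true_and] at hu ⊢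
          exact ⟨closed u hu.1, by rw [hc, hu.1.1, ← hc, hu.2]; rfl⟩
        · intro u _; exact hT v u
        · intro u _; exact hT v u
      have hAcard : A0.card = A1.card := by
        have b := balanced hX hY v
        rw [← hc] at b
        have split : ∀ x : Fin 3, (univ.filter fun u => c u = x).card =
            (univ.filter fun u => GoodAt X Y T v u ∧ c u = x).card +
              (univ.filter fun u => ¬ GoodAt X Y T v u ∧ c u = x).card := by
          intro x
          rw [← Finset.card_filter_add_card_filter_not (s := univ.filter fun u => c u = x)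
            (fun u => GoodAt X Y T v u), Finset.filter_filter, Finset.filter_filter]
          simp only [and_comm]
        rw [split 0, split 1] at b
        simp only [hA0, hA1]
        omega
      let e : A0 ≃ A1 := Finset.equivOfCardEq hAcard
      let f : Fin n → Fin n := fun u =>
        if GoodAt X Y T v u then T v u else
          if h : u ∈ A0 then (e ⟨u, h⟩).1 else if h' : u ∈ A1 then (e.symm ⟨u, h'⟩).1 else u
      have mem0 : ∀ {u}, u ∈ A0 ↔ ¬ GoodAt X Y T v u ∧ c u = 0 := by simp [hA0]
      have mem1 : ∀ {u}, u ∈ A1 ↔ ¬ GoodAt X Y T v u ∧ c u = 1 := by simp [hA1]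
      have fg : ∀ u, GoodAt X Y T v u → f u = T v u := fun u h => if_pos h
      have f0 : ∀ u : A0, f u.1 = (e u).1 := fun u => by
        simp only [f]; rw [if_neg (mem0.mp u.2).1, dif_pos u.2]
      have f1 : ∀ u : A1, f u.1 = (e.symm u).1 := fun u => by
        simp only [f]
        rw [if_neg (mem1.mp u.2).1, dif_neg, dif_pos u.2]
        intro h
        have := (mem0.mp h).2
        rw [(mem1.mp u.2).2] at this
        exact absurd this (by decide)
      have f2 : ∀ u, ¬ GoodAt X Y T v u → c u = 2 → f u = u := fun u h h2 => by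
        simp only [f]
        rw [if_neg h, dif_neg, dif_neg]
        · intro h'; have := (mem1.mp h').2; rw [h2] at this; exact absurd this (by decide)
        · intro h'; have := (mem0.mp h').2; rw [h2] at this; exact absurd this (by decide)
      have finv : ∀ u, f (f u) = u := by
        intro u
        by_cases hg : GoodAt X Y T v u
        · rw [fg u hg, fg _ (closed u hg), hT v u]
        rcases fin3_cases (c u) with h | h | h
        · rw [f0 ⟨u, mem0.mpr ⟨hg, h⟩⟩, f1 (e ⟨u, mem0.mpr ⟨hg, h⟩⟩), Equiv.symm_apply_apply]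
        · rw [f1 ⟨u, mem1.mpr ⟨hg, h⟩⟩, f0 (e.symm ⟨u, mem1.mpr ⟨hg, h⟩⟩),
            Equiv.apply_symm_apply]
        · rw [f2 u hg h, f2 u hg h]
      refine ⟨⟨f, f, finv, finv⟩, ⟨finv, fun u => ?_⟩, fg⟩
      show c (f u) = opp (c u) ∧ (c u = 2 → f u = u)
      by_cases hg : GoodAt X Y T v u
      · rw [fg u hg]; exact hg
      rcases fin3_cases (c u) with h | h | h
      · rw [f0 ⟨u, mem0.mpr ⟨hg, h⟩⟩, (mem1.mp (e ⟨u, mem0.mpr ⟨hg, h⟩⟩).2).2]
        refine ⟨by simp only [h]; rfl, fun h' => absurd (h.symm.trans h') (by decide)⟩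
      · rw [f1 ⟨u, mem1.mpr ⟨hg, h⟩⟩, (mem0.mp (e.symm ⟨u, mem1.mpr ⟨hg, h⟩⟩).2).2]
        refine ⟨by simp only [h]; rfl, fun h' => absurd (h.symm.trans h') (by decide)⟩
      · rw [f2 u hg h, h]
        exact ⟨rfl, fun _ => rfl⟩
    choose π hπ hπ' using loc
    refine ⟨π, ?_, fun v u h => hπ' v u ?_⟩
    · simp only [valid, mem_filter, mem_univ, true_and]
      exact ⟨fun v => (hπ v).1, fun v => (hπ v).2⟩
    · by_contra hb
      exact h (by simp [bad, hb])

end Vale.Agent.P335
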