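import Mathlib

/-!
Discrete mountain climbers: two sequences with common maximum at the start and common minimum at
the end can be traversed simultaneously, the current segments always meeting in value.
-/

namespace Vale.Agent.P335

open Finset

/-- `x` lies weakly between `u` and `w`. -/
def Btw (u w x : ℤ) : Prop := min u w ≤ x ∧ x ≤ max u w

/-- The segments `[u, w]` and `[u', w']` meet. -/
def Meet (u w u' w' : ℤ) : Prop := min u w ≤ max u' w' ∧ min u' w' ≤ max u w

instance (u w x : ℤ) : Decidable (Btw u w x) := by unfold Btw; infer_instance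

section Strict

variable (A B : ℕ → ℤ) (m k : ℕ)

/-- Adjacent squares: they share a crossing. -/
def climbAdj (s t : Fin m × Fin k) : Prop :=
  (t.1.1 = s.1.1 + 1 ∧ t.2 = s.2 ∧ Btw (B s.2.1) (B (s.2.1 + 1)) (A (s.1.1 + 1))) ∨
  (s.1.1 = t.1.1 + 1 ∧ s.2 = t.2 ∧ Btw (B t.2.1) (B (t.2.1 + 1)) (A (t.1.1 + 1))) ∨
  (t.2.1 = s.2.1 + 1 ∧ t.1 = s.1 ∧ Btw (A s.1.1) (A (s.1.1 + 1)) (B (s.2.1 + 1))) ∨
  (s.2.1 = t.2.1 + 1 ∧ s.1 = t.1 ∧ Btw (A t.1.1) (A (t.1.1 + 1)) (B (t.2.1 + 1)))

/-- The crossing graph. -/
def climbGraph : SimpleGraph (Fin m × Fin k) where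
  Adj := climbAdj A B m k
  symm := ⟨by
    intro s t h
    unfold climbAdj at *
    tauto⟩
  loopless := ⟨by
    intro s h
    unfold climbAdj at h
    rcases h with h | h | h | h <;> omega⟩

variable {A B m k}

/-- The four possible ports of a square. -/
def portA0 (A B : ℕ → ℤ) (i j : ℕ) : ℕ := if 0 < i ∧ Btw (B j) (B (j+1)) (A i) then 1 else 0
def portA1 (A B : ℕ → ℤ) (m i j : ℕ) : ℕ :=
  if i + 1 < m ∧ Btw (B j) (B (j+1)) (A (i+1)) then 1 else 0

lemma degree_eq [DecidableRel (climbGraph A B m k).Adj] (s : Fin m × Fin k) :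
    (climbGraph A B m k).degree s =
      portA0 A B s.1.1 s.2.1 + portA1 A B m s.1.1 s.2.1 +
      (portA0 B A s.2.1 s.1.1 + portA1 B A k s.2.1 s.1.1) := by
  classical
  obtain ⟨⟨i, hi⟩, ⟨j, hj⟩⟩ := s
  set S1 : Finset (Fin m × Fin k) :=
    if h : 0 < i ∧ Btw (B j) (B (j+1)) (A i) then {(⟨i-1, by omega⟩, ⟨j, hj⟩)} else ∅ with hS1
  set S2 : Finset (Fin m × Fin k) :=
    if h : i + 1 < m ∧ Btw (B j) (B (j+1)) (A (i+1)) then {(⟨i+1, h.1⟩, ⟨j, hj⟩)} else ∅ with hS2
  set S3 : Finset (Fin m × Fin k) :=
    if h : 0 < j ∧ Btw (A i) (A (i+1)) (B j) then {(⟨i, hi⟩, ⟨j-1, by omega⟩)} else ∅ with hS3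
  set S4 : Finset (Fin m × Fin k) :=
    if h : j + 1 < k ∧ Btw (A i) (A (i+1)) (B (j+1)) then {(⟨i, hi⟩, ⟨j+1, h.1⟩)} else ∅ with hS4
  have hN : (climbGraph A B m k).neighborFinset (⟨i, hi⟩, ⟨j, hj⟩) = S1 ∪ S2 ∪ S3 ∪ S4 := by
    ext ⟨⟨i', hi'⟩, ⟨j', hj'⟩⟩
    rw [SimpleGraph.mem_neighborFinset]
    change climbAdj A B m k _ _ ↔ _
    simp only [climbAdj, hS1, hS2, hS3, hS4, Finset.mem_union, Fin.ext_iff]
    constructor
    · rintro (⟨h1, h2, h3⟩ | ⟨h1, h2, h3⟩ | ⟨h1, h2, h3⟩ | ⟨h1, h2, h3⟩)
      · subst h1 h2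
        left; left; right
        rw [dif_pos ⟨hi', h3⟩]; simp
      · subst h2
        left; left; left
        have : i' + 1 = i := by omega
        rw [dif_pos ⟨by omega, by rw [← this]; exact h3⟩]
        simp; omega
      · subst h1 h2
        right
        rw [dif_pos ⟨hj', h3⟩]; simp
      · subst h2
        left; right
        have : j' + 1 = j := by omega
        rw [dif_pos ⟨by omega, by rw [← this]; exact h3⟩]
        simp; omega
    · rintro (((h | h) | h) | h) <;> split_ifs at h with hc <;>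
        simp [Fin.ext_iff] at h
      · obtain ⟨rfl, rfl⟩ := h
        right; left
        refine ⟨by omega, rfl, ?_⟩
        rw [Nat.sub_add_cancel hc.1]; exact hc.2
      · obtain ⟨rfl, rfl⟩ := h
        left; exact ⟨rfl, rfl, hc.2⟩
      · obtain ⟨rfl, rfl⟩ := h
        right; right; right
        refine ⟨by omega, rfl, ?_⟩
        rw [Nat.sub_add_cancel hc.1]; exact hc.2
      · obtain ⟨rfl, rfl⟩ := h
        right; right; left; exact ⟨rfl, rfl, hc.2⟩
  have hd12 : Disjoint S1 S2 := by
    rw [hS1, hS2]; split_ifs <;> simp [Fin.ext_iff] <;> omega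
  have hd13 : Disjoint (S1 ∪ S2) S3 := by
    rw [Finset.disjoint_union_left, hS1, hS2, hS3]
    constructor <;> split_ifs <;> simp [Fin.ext_iff] <;> omega
  have hd14 : Disjoint (S1 ∪ S2 ∪ S3) S4 := by
    rw [Finset.disjoint_union_left, Finset.disjoint_union_left, hS1, hS2, hS3, hS4]
    refine ⟨⟨?_, ?_⟩, ?_⟩ <;> split_ifs <;> simp [Fin.ext_iff] <;> omega
  rw [← SimpleGraph.card_neighborFinset_eq_degree, hN, Finset.card_union_of_disjoint hd14,
    Finset.card_union_of_disjoint hd13, Finset.card_union_of_disjoint hd12]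
  have e1 : S1.card = portA0 A B i j := by rw [hS1, portA0]; split_ifs <;> simp_all
  have e2 : S2.card = portA1 A B m i j := by rw [hS2, portA1]; split_ifs <;> simp_all
  have e3 : S3.card = portA0 B A j i := by rw [hS3, portA0]; split_ifs <;> simp_all
  have e4 : S4.card = portA1 B A k j i := by rw [hS4, portA1]; split_ifs <;> simp_all
  simp only
  omega

/-- Among two segments with four distinct endpoints an even number of endpoints lie in the other
segment. -/
lemma ports_even (u w u' w' : ℤ) (h1 : u ≠ w) (h2 : u' ≠ w') (h3 : u ≠ u') (h4 : u ≠ w')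
    (h5 : w ≠ u') (h6 : w ≠ w') :
    Even ((if Btw u' w' u then 1 else 0 : ℕ) + (if Btw u' w' w then 1 else 0) +
      ((if Btw u w u' then 1 else 0) + (if Btw u w w' then 1 else 0))) := by
  rw [Nat.even_iff]
  simp only [Btw, min_le_iff, le_max_iff]
  split_ifs <;> omega

end Strict

/-- Hypotheses of the strict climbing lemma. -/
structure ClimbData (A B : ℕ → ℤ) (m k : ℕ) : Prop where
  mpos : 0 < m
  kpos : 0 < k
  top : A 0 = B 0
  bot : A m = B k
  top_gtA : ∀ i, 0 < i → i ≤ m → A i < A 0
  top_gtB : ∀ j, 0 < j → j ≤ k → B j < B 0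
  bot_ltA : ∀ i, i < m → A m < A i
  bot_ltB : ∀ j, j < k → B k < B j
  injA : ∀ i i', i ≤ m → i' ≤ m → A i = A i' → i = i'
  injB : ∀ j j', j ≤ k → j' ≤ k → B j = B j' → j = j'
  cross : ∀ i j, 0 < i → i < m → j ≤ k → A i ≠ B j

lemma climb_meet {A B : ℕ → ℤ} {m k : ℕ} {s t : Fin m × Fin k}
    (h : climbAdj A B m k s t) :
    Meet (A s.1.1) (A (s.1.1+1)) (B s.2.1) (B (s.2.1+1)) := by
  unfold climbAdj Btw at h
  unfold Meet
  simp only [min_le_iff, le_max_iff] at *
  rcases h with ⟨h1, h2, h3⟩ | ⟨h1, h2, h3⟩ | ⟨h1, h2, h3⟩ | ⟨h1, h2, h3⟩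
  · constructor <;> omega
  · rw [h2, h1]; constructor <;> omega
  · constructor <;> omega
  · rw [h2, h1]; constructor <;> omega

lemma climb_strict {A B : ℕ → ℤ} {m k : ℕ} (D : ClimbData A B m k) :
    (climbGraph A B m k).Reachable (⟨0, D.mpos⟩, ⟨0, D.kpos⟩)
      (⟨m-1, by have := D.mpos; omega⟩, ⟨k-1, by have := D.kpos; omega⟩) := by
  classical
  set G := climbGraph A B m k with hG
  set s0 : Fin m × Fin k := (⟨0, D.mpos⟩, ⟨0, D.kpos⟩) with hs0
  set s1 : Fin m × Fin k :=
    (⟨m-1, by have := D.mpos; omega⟩, ⟨k-1, by have := D.kpos; omega⟩) with hs1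
  by_contra hne
  have hne' : s0 ≠ s1 := by
    intro h; apply hne; rw [h]
  have hmk : ¬ (m = 1 ∧ k = 1) := by
    rintro ⟨rfl, rfl⟩; exact hne' (Subsingleton.elim _ _)
  have hpar : ∀ s : Fin m × Fin k, Odd (G.degree s) → s = s0 ∨ s = s1 := by
    rintro ⟨⟨i, hi⟩, ⟨j, hj⟩⟩ hodd
    by_contra hc
    push Not at hc
    obtain ⟨hc0, hc1⟩ := hc
    rw [hG, degree_eq] at hodd
    simp only [hs0, hs1, ne_eq, Prod.mk.injEq, Fin.mk.injEq] at hc0 hc1
    have hA : A i ≠ A (i+1) := fun h => by have := D.injA _ _ (by omega) (by omega) h; omega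
    have hB : B j ≠ B (j+1) := fun h => by have := D.injB _ _ (by omega) (by omega) h; omega
    have key : ∀ i' j', i' ≤ m → j' ≤ k → A i' = B j' → (i' = 0 ∧ j' = 0) ∨ (i' = m ∧ j' = k) := by
      intro i' j' h1 h2 h
      rcases Nat.eq_zero_or_pos i' with rfl | hp
      · left
        refine ⟨rfl, D.injB _ _ h2 (by omega) ?_⟩
        rw [← h, D.top]
      · rcases Nat.lt_or_ge i' m with hl | hl
        · exact absurd h (D.cross _ _ hp hl h2)
        · right
          have : i' = m := by omega
          subst this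
          exact ⟨rfl, D.injB _ _ h2 le_rfl (by rw [← h, D.bot])⟩
    have h3 : A i ≠ B j := fun h => by
      rcases key _ _ (by omega) (by omega) h with ⟨a, b⟩ | ⟨a, b⟩
      · exact hc0 ⟨a, b⟩
      · omega
    have h4 : A i ≠ B (j+1) := fun h => by
      rcases key _ _ (by omega) (by omega) h with ⟨a, b⟩ | ⟨a, b⟩ <;> omega
    have h5 : A (i+1) ≠ B j := fun h => by
      rcases key _ _ (by omega) (by omega) h with ⟨a, b⟩ | ⟨a, b⟩ <;> omega
    have h6 : A (i+1) ≠ B (j+1) := fun h => by
      rcases key _ _ (by omega) (by omega) h with ⟨a, b⟩ | ⟨a, b⟩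
      · omega
      · exact hc1 ⟨by omega, by omega⟩
    have e := ports_even _ _ _ _ hA hB h3 h4 h5 h6
    have p1 : portA0 A B i j = (if Btw (B j) (B (j+1)) (A i) then 1 else 0) := by
      unfold portA0
      by_cases hz : 0 < i
      · simp [hz]
      · have : i = 0 := by omega
        subst this
        have hnot : ¬ Btw (B j) (B (j+1)) (A 0) := by
          unfold Btw
          simp only [le_max_iff]
          have := D.top
          have := D.top_gtB (j+1) (by omega) (by omega)
          have : j ≠ 0 := fun h => hc0 ⟨rfl, h⟩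
          have := D.top_gtB j (by omega) (by omega)
          omega
        simp [hnot]
    have p2 : portA1 A B m i j = (if Btw (B j) (B (j+1)) (A (i+1)) then 1 else 0) := by
      unfold portA1
      by_cases hz : i + 1 < m
      · simp [hz]
      · have : i + 1 = m := by omega
        have hnot : ¬ Btw (B j) (B (j+1)) (A (i+1)) := by
          unfold Btw
          simp only [min_le_iff, this]
          have := D.bot
          have := D.bot_ltB j (by omega)
          have : j + 1 ≠ k := fun h => hc1 ⟨by omega, by omega⟩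
          have := D.bot_ltB (j+1) (by omega)
          omega
        simp [hnot]
    have p3 : portA0 B A j i = (if Btw (A i) (A (i+1)) (B j) then 1 else 0) := by
      unfold portA0
      by_cases hz : 0 < j
      · simp [hz]
      · have : j = 0 := by omega
        subst this
        have hnot : ¬ Btw (A i) (A (i+1)) (B 0) := by
          unfold Btw
          simp only [le_max_iff]
          have := D.top
          have := D.top_gtA (i+1) (by omega) (by omega)
          have : i ≠ 0 := fun h => hc0 ⟨h, rfl⟩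
          have := D.top_gtA i (by omega) (by omega)
          omega
        simp [hnot]
    have p4 : portA1 B A k j i = (if Btw (A i) (A (i+1)) (B (j+1)) then 1 else 0) := by
      unfold portA1
      by_cases hz : j + 1 < k
      · simp [hz]
      · have : j + 1 = k := by omega
        have hnot : ¬ Btw (A i) (A (i+1)) (B (j+1)) := by
          unfold Btw
          simp only [min_le_iff, this]
          have := D.bot
          have := D.bot_ltA i (by omega)
          have : i + 1 ≠ m := fun h => hc1 ⟨by omega, by omega⟩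
          have := D.bot_ltA (i+1) (by omega)
          omega
        simp [hnot]
    simp only at hodd
    rw [p1, p2, p3, p4] at hodd
    exact (Nat.not_even_iff_odd.mpr hodd) e
  have h0 : Odd (G.degree s0) := by
    rw [hG, degree_eq, Nat.odd_iff]
    simp only [hs0, portA0, portA1, lt_irrefl, false_and, if_false, zero_add, Btw, min_le_iff,
      le_max_iff]
    have := D.mpos
    have := D.kpos
    have a1 := D.top_gtA 1 one_pos (by omega)
    have b1 := D.top_gtB 1 one_pos (by omega)
    have := D.top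
    have := D.bot
    by_cases hm : 1 < m
    · by_cases hk : 1 < k
      · have := D.cross 1 1 one_pos hm (by omega)
        simp only [hm, hk, true_and]
        split_ifs <;> omega
      · obtain rfl : k = 1 := by omega
        have := D.bot_ltA 1 hm
        simp only [hm, lt_irrefl, true_and, false_and, if_false]
        split_ifs <;> omega
    · obtain rfl : m = 1 := by omega
      have hk : 1 < k := by omega
      have := D.bot_ltB 1 hk
      simp only [hk, lt_irrefl, true_and, false_and, if_false]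
      split_ifs <;> omega
  -- the component of `s0`
  let H : SimpleGraph (Fin m × Fin k) :=
    { Adj := fun a b => G.Adj a b ∧ G.Reachable s0 a
      symm := ⟨fun a b h => ⟨h.1.symm, h.2.trans h.1.reachable⟩⟩
      loopless := ⟨fun a h => G.loopless.irrefl a h.1⟩ }
  have hdeg : ∀ a, G.Reachable s0 a → H.degree a = G.degree a := by
    intro a ha
    rw [← SimpleGraph.card_neighborFinset_eq_degree, ← SimpleGraph.card_neighborFinset_eq_degree]
    congr 1
    ext b
    simp [H, ha]
  obtain ⟨w, hw0, hwodd⟩ := H.exists_ne_odd_degree_of_exists_odd_degree s0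
    (by rw [hdeg s0 (SimpleGraph.Reachable.refl _)]; exact h0)
  have hwr : G.Reachable s0 w := by
    by_contra hw
    have : H.degree w = 0 := by
      rw [← SimpleGraph.card_neighborFinset_eq_degree, Finset.card_eq_zero,
        Finset.eq_empty_iff_forall_notMem]
      intro b hb
      simp [H, hw] at hb
    rw [this] at hwodd
    exact absurd hwodd (by decide)
  rw [hdeg w hwr] at hwodd
  rcases hpar w hwodd with h | h
  · exact hw0 h
  · exact hne (h ▸ hwr)

/-- Mountain climbers, weak form: any predicate closed under steps between meeting squares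
propagates from the first square to the last. -/
lemma climb (a b : ℕ → ℤ) (m k : ℕ) (hm : 0 < m) (hk : 0 < k) (htop : a 0 = b 0)
    (hbot : a m = b k) (hA : ∀ i ≤ m, a m ≤ a i ∧ a i ≤ a 0)
    (hB : ∀ j ≤ k, b k ≤ b j ∧ b j ≤ b 0) (P : ℕ → ℕ → Prop) (h0 : P 0 0)
    (hstep : ∀ i j i' j', i < m → j < k → i' < m → j' < k →
      ((i' = i + 1 ∧ j' = j) ∨ (i = i' + 1 ∧ j' = j) ∨ (i' = i ∧ j' = j + 1) ∨
        (i' = i ∧ j = j' + 1)) →
      Meet (a i) (a (i+1)) (b j) (b (j+1)) → Meet (a i') (a (i'+1)) (b j') (b (j'+1)) →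
      P i j → P i' j') :
    P (m-1) (k-1) := by
  set N : ℤ := (m : ℤ) + k + 3 with hN
  set A : ℕ → ℤ := fun i => if i = 0 then a 0 * N + (N-1) else if i = m then a m * N else
    a i * N + i with hAdef
  set B : ℕ → ℤ := fun j => if j = 0 then a 0 * N + (N-1) else if j = k then a m * N else
    b j * N + ((m:ℤ) + j) with hBdef
  have hNpos : 0 < N := by omega
  -- every value is `floor * N + offset`
  have repA : ∀ i ≤ m, ∃ o : ℤ, 0 ≤ o ∧ o < N ∧ A i = a i * N + o ∧
      (i = 0 → o = N - 1) ∧ (0 < i → i < m → o = i) ∧ (i = m → o = 0) := by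
    intro i hi
    simp only [hAdef]
    split_ifs with h1 h2
    · exact ⟨N-1, by omega, by omega, by rw [h1], by intros; omega, by intros; omega,
        by intros; omega⟩
    · exact ⟨0, le_rfl, hNpos, by rw [h2]; ring, by intros; omega, by intros; omega,
        by intros; omega⟩
    · exact ⟨i, by omega, by omega, rfl, by intros; omega, by intros; omega, by intros; omega⟩
  have repB : ∀ j ≤ k, ∃ o : ℤ, 0 ≤ o ∧ o < N ∧ B j = b j * N + o ∧
      (j = 0 → o = N - 1) ∧ (0 < j → j < k → o = (m:ℤ) + j) ∧ (j = k → o = 0) := by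
    intro j hj
    simp only [hBdef]
    split_ifs with h1 h2
    · exact ⟨N-1, by omega, by omega, by rw [h1, htop], by intros; omega, by intros; omega,
        by intros; omega⟩
    · exact ⟨0, le_rfl, hNpos, by rw [h2, hbot]; ring, by intros; omega, by intros; omega,
        by intros; omega⟩
    · exact ⟨(m:ℤ) + j, by omega, by omega, rfl, by intros; omega, by intros; omega,
        by intros; omega⟩
  have lt_rep : ∀ x y o o' : ℤ, 0 ≤ o → o < N → 0 ≤ o' → o' < N →
      (x * N + o < y * N + o' ↔ x < y ∨ (x = y ∧ o < o')) := by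
    intro x y o o' h1 h2 h3 h4
    constructor
    · intro h
      rcases lt_trichotomy x y with hxy | hxy | hxy
      · exact Or.inl hxy
      · subst hxy; exact Or.inr ⟨rfl, by omega⟩
      · nlinarith
    · rintro (h | ⟨rfl, h⟩)
      · nlinarith
      · omega
  have eq_rep : ∀ x y o o' : ℤ, 0 ≤ o → o < N → 0 ≤ o' → o' < N →
      x * N + o = y * N + o' → x = y ∧ o = o' := by
    intro x y o o' h1 h2 h3 h4 h
    have hxy : x = y := by
      rcases lt_trichotomy x y with hxy | hxy | hxy
      · nlinarith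
      · exact hxy
      · nlinarith
    subst hxy; exact ⟨rfl, by omega⟩
  have D : ClimbData A B m k := by
    obtain ⟨o0, p0, q0, e0, c0, -, -⟩ := repA 0 (Nat.zero_le _)
    obtain ⟨om, pm, qm, em, -, -, cm⟩ := repA m le_rfl
    obtain ⟨r0, s0, t0, f0, d0, -, -⟩ := repB 0 (Nat.zero_le _)
    obtain ⟨rk, sk, tk, fk, -, -, dk⟩ := repB k le_rfl
    refine ⟨hm, hk, ?_, ?_, ?_, ?_, ?_, ?_, ?_, ?_, ?_⟩
    · rw [e0, f0, htop, c0 rfl, d0 rfl]
    · rw [em, fk, hbot, cm rfl, dk rfl]
    · intro i hi him
      obtain ⟨o, p, q, e, -, c1, c2⟩ := repA i him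
      rw [e, e0, lt_rep _ _ _ _ p q p0 q0]
      have := (hA i him).2
      rcases Nat.lt_or_ge i m with h | h
      · have := c1 hi h; have := c0 rfl; omega
      · have := c2 (by omega); have := c0 rfl; omega
    · intro j hj hjk
      obtain ⟨o, p, q, e, -, c1, c2⟩ := repB j hjk
      rw [e, f0, lt_rep _ _ _ _ p q s0 t0]
      have := (hB j hjk).2
      rcases Nat.lt_or_ge j k with h | h
      · have := c1 hj h; have := d0 rfl; omega
      · have := c2 (by omega); have := d0 rfl; omega
    · intro i him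
      obtain ⟨o, p, q, e, c, c1, -⟩ := repA i him.le
      rw [e, em, lt_rep _ _ _ _ pm qm p q]
      have := (hA i him.le).1
      rcases Nat.eq_zero_or_pos i with h | h
      · have := c h; have := cm rfl; omega
      · have := c1 h him; have := cm rfl; omega
    · intro j hjk
      obtain ⟨o, p, q, e, c, c1, -⟩ := repB j hjk.le
      rw [e, fk, lt_rep _ _ _ _ sk tk p q]
      have := (hB j hjk.le).1
      rcases Nat.eq_zero_or_pos j with h | h
      · have := c h; have := dk rfl; omega
      · have := c1 h hjk; have := dk rfl; omega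
    · intro i i' hi hi' h
      obtain ⟨o, p, q, e, c, c1, c2⟩ := repA i hi
      obtain ⟨o', p', q', e', c', c1', c2'⟩ := repA i' hi'
      have := (eq_rep _ _ _ _ p q p' q' (by rw [← e, ← e', h])).2
      rcases Nat.eq_zero_or_pos i with h1 | h1 <;> rcases Nat.eq_zero_or_pos i' with h2 | h2
      · omega
      · have := c h1
        rcases Nat.lt_or_ge i' m with h3 | h3
        · have := c1' h2 h3; omega
        · have := c2' (by omega); omega
      · have := c' h2
        rcases Nat.lt_or_ge i m with h3 | h3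
        · have := c1 h1 h3; omega
        · have := c2 (by omega); omega
      · rcases Nat.lt_or_ge i m with h3 | h3 <;> rcases Nat.lt_or_ge i' m with h4 | h4
        · have := c1 h1 h3; have := c1' h2 h4; omega
        · have := c1 h1 h3; have := c2' (by omega); omega
        · have := c2 (by omega); have := c1' h2 h4; omega
        · omega
    · intro i i' hi hi' h
      obtain ⟨o, p, q, e, c, c1, c2⟩ := repB i hi
      obtain ⟨o', p', q', e', c', c1', c2'⟩ := repB i' hi'
      have := (eq_rep _ _ _ _ p q p' q' (by rw [← e, ← e', h])).2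
      rcases Nat.eq_zero_or_pos i with h1 | h1 <;> rcases Nat.eq_zero_or_pos i' with h2 | h2
      · omega
      · have := c h1
        rcases Nat.lt_or_ge i' k with h3 | h3
        · have := c1' h2 h3; omega
        · have := c2' (by omega); omega
      · have := c' h2
        rcases Nat.lt_or_ge i k with h3 | h3
        · have := c1 h1 h3; omega
        · have := c2 (by omega); omega
      · rcases Nat.lt_or_ge i k with h3 | h3 <;> rcases Nat.lt_or_ge i' k with h4 | h4
        · have := c1 h1 h3; have := c1' h2 h4; omega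
        · have := c1 h1 h3; have := c2' (by omega); omega
        · have := c2 (by omega); have := c1' h2 h4; omega
        · omega
    · intro i j hi him hj h
      obtain ⟨o, p, q, e, -, c1, -⟩ := repA i him.le
      obtain ⟨o', p', q', e', c', c1', c2'⟩ := repB j hj
      have := (eq_rep _ _ _ _ p q p' q' (by rw [← e, ← e', h])).2
      have := c1 hi him
      rcases Nat.eq_zero_or_pos j with h1 | h1
      · have := c' h1; omega
      · rcases Nat.lt_or_ge j k with h3 | h3
        · have := c1' h1 h3; omega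
        · have := c2' (by omega); omega
  have meet_weak : ∀ i j, i < m → j < k → Meet (A i) (A (i+1)) (B j) (B (j+1)) →
      Meet (a i) (a (i+1)) (b j) (b (j+1)) := by
    intro i j hi hj h
    obtain ⟨o1, p1, q1, e1, -⟩ := repA i hi.le
    obtain ⟨o2, p2, q2, e2, -⟩ := repA (i+1) hi
    obtain ⟨o3, p3, q3, e3, -⟩ := repB j hj.le
    obtain ⟨o4, p4, q4, e4, -⟩ := repB (j+1) hj
    have mono : ∀ x y o o' : ℤ, 0 ≤ o → o < N → 0 ≤ o' → o' < N →
        x * N + o ≤ y * N + o' → x ≤ y := by
      intro x y o o' h1 h2 h3 h4 h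
      by_contra hxy
      push Not at hxy
      nlinarith
    unfold Meet at *
    simp only [min_le_iff, le_max_iff, e1, e2, e3, e4] at *
    obtain ⟨hx, hy⟩ := h
    constructor
    · rcases hx with (hx | hx) | (hx | hx)
      · exact Or.inl (Or.inl (mono _ _ _ _ p1 q1 p3 q3 hx))
      · exact Or.inl (Or.inr (mono _ _ _ _ p2 q2 p3 q3 hx))
      · exact Or.inr (Or.inl (mono _ _ _ _ p1 q1 p4 q4 hx))
      · exact Or.inr (Or.inr (mono _ _ _ _ p2 q2 p4 q4 hx))
    · rcases hy with (hy | hy) | (hy | hy)
      · exact Or.inl (Or.inl (mono _ _ _ _ p3 q3 p1 q1 hy))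
      · exact Or.inl (Or.inr (mono _ _ _ _ p4 q4 p1 q1 hy))
      · exact Or.inr (Or.inl (mono _ _ _ _ p3 q3 p2 q2 hy))
      · exact Or.inr (Or.inr (mono _ _ _ _ p4 q4 p2 q2 hy))
  obtain ⟨w⟩ := climb_strict D
  suffices ∀ (s t : Fin m × Fin k), (climbGraph A B m k).Walk s t → P s.1.1 s.2.1 → P t.1.1 t.2.1
    from this _ _ w h0
  intro s t w
  induction w with
  | nil => exact id
  | @cons u v w' h p ih =>
    intro hu
    refine ih (hstep u.1.1 u.2.1 v.1.1 v.2.1 u.1.2 u.2.2 v.1.2 v.2.2 ?_
      (meet_weak _ _ u.1.2 u.2.2 (climb_meet h))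
      (meet_weak _ _ v.1.2 v.2.2 (climb_meet ((climbGraph A B m k).symm.symm _ _ h))) hu)
    have h' : climbAdj A B m k u v := h
    unfold climbAdj at h'
    rcases h' with ⟨a1, a2, -⟩ | ⟨a1, a2, -⟩ | ⟨a1, a2, -⟩ | ⟨a1, a2, -⟩ <;>
      simp only [Fin.ext_iff] at a2 <;> omega

end Vale.Agent.P335
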