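import Mathlib
import Vale.Agent.P335.CDefs

/-!
Degrees of edge sets under symmetric differences, and the repair of a spread defect.
-/

open Finset
open scoped Classical symmDiff

namespace Vale.Agent.P335

variable {n : ℕ}

/-- Signed count of incidences. -/
noncomputable def inc (v : Fin n) (e : Sym2 (Fin n)) : ℤ := if v ∈ e then 1 else 0

lemma degE_eq_sum {X : ESet n} (_hX : ∀ e ∈ X, ¬ e.IsDiag) (v : Fin n) :
    (degE X v : ℤ) = ∑ e ∈ X, inc v e := by
  have h : degE X v = (X.filter fun e => v ∈ e).card := by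
    refine Finset.card_bij (fun u _ => s(v, u)) ?_ ?_ ?_
    · intro u hu
      simp only [mem_filter, mem_univ, true_and] at hu
      simp [hu]
    · intro a _ b _ hab
      exact Sym2.congr_right.mp hab
    · intro e he
      simp only [mem_filter] at he
      refine ⟨Sym2.Mem.other he.2, ?_, Sym2.other_spec he.2⟩
      simp [Sym2.other_spec he.2, he.1]
  rw [h]
  simp [inc, Finset.sum_boole]

lemma sum_symmDiff_eq {α : Type*} [DecidableEq α] (Z F : Finset α) (f : α → ℤ) :
    ∑ e ∈ Z ∆ F, f e = ∑ e ∈ Z, f e + ∑ e ∈ F, (if e ∈ Z then -1 else 1) * f e := by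
  have h1 : Z ∆ F = (Z \ F) ∪ (F \ Z) := symmDiff_def Z F
  have h2 : Disjoint (Z \ F) (F \ Z) := by
    rw [Finset.disjoint_left]; intro a ha hb
    simp only [mem_sdiff] at ha hb
    exact hb.2 ha.1
  rw [h1, Finset.sum_union h2, ← Finset.sum_inter_add_sum_sdiff Z F f,
    ← Finset.sum_inter_add_sum_sdiff F Z (fun e => (if e ∈ Z then (-1:ℤ) else 1) * f e)]
  have a1 : ∑ e ∈ F ∩ Z, (if e ∈ Z then (-1:ℤ) else 1) * f e = -∑ e ∈ Z ∩ F, f e := by
    rw [Finset.inter_comm F Z, ← Finset.sum_neg_distrib]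
    refine Finset.sum_congr rfl fun e he => ?_
    simp only [mem_inter] at he
    simp [he.1]
  have a2 : ∑ e ∈ F \ Z, (if e ∈ Z then (-1:ℤ) else 1) * f e = ∑ e ∈ F \ Z, f e := by
    refine Finset.sum_congr rfl fun e he => ?_
    simp only [mem_sdiff] at he
    simp [he.2]
  rw [a1, a2]
  ring

lemma card_symmDiff_le {α : Type*} [DecidableEq α] (A B C : Finset α) :
    (A ∆ C).card ≤ (A ∆ B).card + (B ∆ C).card := by
  calc (A ∆ C).card ≤ (A ∆ B ∪ B ∆ C).card :=
        Finset.card_le_card (symmDiff_triangle A B C)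
    _ ≤ _ := Finset.card_union_le _ _

lemma card_symmDiff_image_le {α β : Type*} [DecidableEq α] [DecidableEq β] (A B : Finset α)
    (f : α → β) : ((A.image f) ∆ (B.image f)).card ≤ (A ∆ B).card := by
  refine le_trans (Finset.card_le_card ?_) (Finset.card_image_le (f := f))
  intro y hy
  simp only [Finset.mem_symmDiff, mem_image] at *
  rcases hy with ⟨⟨a, ha, rfl⟩, hn⟩ | ⟨⟨a, ha, rfl⟩, hn⟩
  · exact ⟨a, Or.inl ⟨ha, fun hb => hn ⟨a, hb, rfl⟩⟩, rfl⟩
  · exact ⟨a, Or.inr ⟨ha, fun hb => hn ⟨a, hb, rfl⟩⟩, rfl⟩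

/-- The spread lemma: an excess at `a` and a deficit at `b` with `d b ≤ d a` can be repaired by
moving one edge from `a` to `b`. -/
lemma repair_defect {d : Fin n → ℕ} {X : ESet n} {a b : Fin n}
    (hX : ∀ e ∈ X, ¬ e.IsDiag)
    (hdeg : ∀ v, (degE X v : ℤ) = d v + (if v = a then 1 else 0) - (if v = b then 1 else 0))
    (hab : d b ≤ d a) : ∃ M, Realizes d M ∧ (M ∆ X).card ≤ 2 := by
  by_cases h : a = b
  · subst h
    refine ⟨X, ⟨hX, fun v => ?_⟩, by simp⟩
    have := hdeg v
    omega
  have ha := hdeg a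
  have hb := hdeg b
  simp only [if_pos, if_neg h, if_neg (Ne.symm h)] at ha hb
  obtain ⟨z, hza, hzb, hz1, hz2⟩ :
      ∃ z, s(a, z) ∈ X ∧ s(b, z) ∉ X ∧ z ≠ a ∧ z ≠ b := by
    by_contra hc
    push Not at hc
    have hsub : ((univ.filter fun u => s(a, u) ∈ X).erase b) ⊆
        ((univ.filter fun u => s(b, u) ∈ X).erase a) := by
      intro z hz
      simp only [mem_erase, mem_filter, mem_univ, true_and] at hz ⊢
      have hzna : z ≠ a := fun e => hX _ hz.2 (by rw [e]; simp)
      refine ⟨hzna, ?_⟩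
      by_contra hn
      exact hz.1 (hc z hz.2 hn hzna)
    have hle := Finset.card_le_card hsub
    have hiff : s(a, b) ∈ X ↔ s(b, a) ∈ X := by rw [Sym2.eq_swap]
    have : (univ.filter fun u => s(a, u) ∈ X).card ≤ (univ.filter fun u => s(b, u) ∈ X).card := by
      rw [Finset.card_erase_eq_ite, Finset.card_erase_eq_ite] at hle
      by_cases hm : s(a, b) ∈ X
      · rw [if_pos (by simp [hm]), if_pos (by simp [hiff.mp hm])] at hle
        have : 0 < (univ.filter fun u => s(b, u) ∈ X).card :=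
          Finset.card_pos.mpr ⟨a, by simp [hiff.mp hm]⟩
        omega
      · have hm' : s(b, a) ∉ X := fun x => hm (hiff.mpr x)
        rw [if_neg (by simp [hm]), if_neg (by simp [hm'])] at hle
        exact hle
    unfold degE at ha hb
    omega
  set F : ESet n := {s(a, z), s(b, z)} with hF
  have hne : s(a, z) ≠ s(b, z) := by
    intro e
    exact h (Sym2.congr_left.mp e)
  refine ⟨X ∆ F, ?_, ?_⟩
  · have hloop : ∀ e ∈ X ∆ F, ¬ e.IsDiag := by
      intro e he
      rcases Finset.mem_symmDiff.mp he with ⟨h1, -⟩ | ⟨h1, -⟩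
      · exact hX e h1
      · simp only [hF, mem_insert, mem_singleton] at h1
        rcases h1 with rfl | rfl
        · simp [Sym2.mk_isDiag_iff, Ne.symm hz1]
        · simp [Sym2.mk_isDiag_iff, Ne.symm hz2]
    refine ⟨hloop, fun v => ?_⟩
    have h1 := degE_eq_sum hloop v
    rw [sum_symmDiff_eq, ← degE_eq_sum hX v, hdeg v, hF, Finset.sum_pair hne, if_pos hza,
      if_neg hzb] at h1
    have e1 : inc v s(a, z) = (if v = a then 1 else 0) + (if v = z then 1 else 0) := by
      simp only [inc, Sym2.mem_iff]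
      split_ifs <;> grind
    have e2 : inc v s(b, z) = (if v = b then 1 else 0) + (if v = z then 1 else 0) := by
      simp only [inc, Sym2.mem_iff]
      split_ifs <;> grind
    rw [e1, e2] at h1
    rw [hF]
    omega
  · rw [symmDiff_comm X F, symmDiff_symmDiff_cancel_right]
    exact Finset.card_le_two

end Vale.Agent.P335
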