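import Mathlib
import Vale.Agent.P335.CDefs

/-!
Closed alternating trails of a transition system.
-/

open Finset
open scoped Classical symmDiff

namespace Vale.Agent.P335

variable {n : ℕ}

/-- The reversed dart. -/
def rev (p : Fin n × Fin n) : Fin n × Fin n := (p.2, p.1)

/-- The edge of a dart. -/
def edgeOf (p : Fin n × Fin n) : Sym2 (Fin n) := s(p.1, p.2)

lemma edgeOf_rev (p : Fin n × Fin n) : edgeOf (rev p) = edgeOf p := Sym2.eq_swap

lemma edgeOf_eq_iff {p q : Fin n × Fin n} : edgeOf p = edgeOf q ↔ q = p ∨ q = rev p := by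
  obtain ⟨a, b⟩ := p
  obtain ⟨c, e⟩ := q
  simp only [edgeOf, rev, Sym2.eq_iff, Prod.mk.injEq]
  grind

lemma cell_eq (T : Trans n) (p : Fin n × Fin n) (t : ℕ) :
    cell T p t = edgeOf ((nxt T)^[t] p) := rfl

/-- The setting of a valid pair. -/
structure TrailCtx (T : Trans n) (G H : ESet n) : Prop where
  invol : Invol T
  loopless : ∀ e ∈ H, ¬ e.IsDiag
  good : ∀ v u, GoodAt (G ∩ H) (H \ G) T v u

variable {T : Trans n} {G H : ESet n}

lemma col_split (G H : ESet n) (v u : Fin n) :
    col (G ∩ H) (H \ G) v u =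
      if s(v, u) ∈ H then (if s(v, u) ∈ G then 0 else 1) else 2 := by
  simp only [col, mem_inter, mem_sdiff]
  split_ifs <;> tauto

lemma inH_nxt (C : TrailCtx T G H) (p : Fin n × Fin n) :
    edgeOf (nxt T p) ∈ H ↔ edgeOf p ∈ H := by
  obtain ⟨u, v⟩ := p
  obtain ⟨h1, h2⟩ := C.good v u
  rw [col_split, col_split] at h1
  rw [col_split] at h2
  simp only [edgeOf, nxt, Equiv.coe_fn_mk]
  rw [Sym2.eq_swap (a := u) (b := v)]
  by_cases hu : s(v, u) ∈ H
  · refine iff_of_true ?_ hu
    by_contra hn
    rw [if_pos hu, if_neg hn] at h1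
    split_ifs at h1 <;> simp [opp] at h1
  · rw [if_neg hu] at h2
    rw [h2 rfl]

lemma inG_nxt (C : TrailCtx T G H) (p : Fin n × Fin n) (hp : edgeOf p ∈ H) :
    edgeOf (nxt T p) ∈ G ↔ edgeOf p ∉ G := by
  have hn := (inH_nxt C p).mpr hp
  obtain ⟨u, v⟩ := p
  obtain ⟨h1, -⟩ := C.good v u
  simp only [edgeOf, nxt, Equiv.coe_fn_mk] at hn hp ⊢
  rw [Sym2.eq_swap (a := u) (b := v)] at hp ⊢
  rw [col_split, col_split, if_pos hn, if_pos hp] at h1
  constructor
  · intro a b
    rw [if_pos a, if_pos b] at h1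
    simp [opp] at h1
  · intro a
    by_contra b
    rw [if_neg a, if_neg b] at h1
    simp [opp] at h1

lemma inH_iterate (C : TrailCtx T G H) (p : Fin n × Fin n) (t : ℕ) :
    edgeOf ((nxt T)^[t] p) ∈ H ↔ edgeOf p ∈ H := by
  induction t with
  | zero => simp
  | succ t ih => rw [Function.iterate_succ_apply', inH_nxt C, ih]

lemma inG_iterate (C : TrailCtx T G H) (p : Fin n × Fin n) (hp : edgeOf p ∈ H) (t : ℕ) :
    edgeOf ((nxt T)^[t] p) ∈ G ↔ (edgeOf p ∈ G ↔ Even t) := by
  induction t with
  | zero => simp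
  | succ t ih =>
    rw [Function.iterate_succ_apply', inG_nxt C _ ((inH_iterate C p t).mpr hp), ih,
      Nat.even_add_one]
    tauto

/-- The period of the trail through a dart. -/
noncomputable def period (T : Trans n) (p : Fin n × Fin n) : ℕ :=
  Function.minimalPeriod (nxt T) p

lemma period_pos (T : Trans n) (p : Fin n × Fin n) : 0 < period T p :=
  Function.minimalPeriod_pos_of_mem_periodicPts
    ((nxt T).injective.mem_periodicPts p)

lemma iterate_period (T : Trans n) (p : Fin n × Fin n) :
    (nxt T)^[period T p] p = p :=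
  Function.iterate_minimalPeriod

lemma iterate_add_period (T : Trans n) (p : Fin n × Fin n) (t : ℕ) :
    (nxt T)^[t + period T p] p = (nxt T)^[t] p := by
  rw [Function.iterate_add_apply, iterate_period]

lemma iterate_mod_period (T : Trans n) (p : Fin n × Fin n) (t : ℕ) :
    (nxt T)^[t % period T p] p = (nxt T)^[t] p :=
  Function.iterate_mod_minimalPeriod_eq

lemma iterate_inj (T : Trans n) (p : Fin n × Fin n) {a b : ℕ} (ha : a < period T p)
    (hb : b < period T p) (h : (nxt T)^[a] p = (nxt T)^[b] p) : a = b :=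
  Function.iterate_injOn_Iio_minimalPeriod ha hb h

lemma period_le (T : Trans n) (p : Fin n × Fin n) : period T p ≤ n * n := by
  have h := Finset.card_le_card (Finset.subset_univ
    ((range (period T p)).image fun t => (nxt T)^[t] p))
  rw [Finset.card_image_of_injOn] at h
  · simpa using h
  · intro a ha b hb hab
    exact iterate_inj T p (by simpa using ha) (by simpa using hb) hab

lemma period_even (C : TrailCtx T G H) (p : Fin n × Fin n) (hp : edgeOf p ∈ H) :
    Even (period T p) := by
  have h := inG_iterate C p hp (period T p)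
  rw [iterate_period] at h
  tauto

lemma two_le_period (C : TrailCtx T G H) (p : Fin n × Fin n) (hp : edgeOf p ∈ H) :
    2 ≤ period T p := by
  obtain ⟨k, hk⟩ := period_even C p hp
  have := period_pos T p
  omega

lemma rev_nxt (C : TrailCtx T G H) (p : Fin n × Fin n) :
    nxt T (rev (nxt T p)) = rev p := by
  obtain ⟨u, v⟩ := p
  simp [rev, nxt, C.invol v u]

lemma rev_iterate (C : TrailCtx T G H) (p : Fin n × Fin n) (t : ℕ) :
    (nxt T)^[t] (rev ((nxt T)^[t] p)) = rev p := by
  induction t generalizing p with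
  | zero => simp
  | succ t ih =>
    rw [Function.iterate_succ_apply (nxt T) t p, Function.iterate_succ_apply',
      ih (nxt T p), rev_nxt C]

lemma rev_iterate' (C : TrailCtx T G H) (p : Fin n × Fin n) {i t : ℕ} (h : i ≤ t) :
    (nxt T)^[i] (rev ((nxt T)^[t] p)) = rev ((nxt T)^[t - i] p) := by
  have : t = i + (t - i) := by omega
  conv_lhs => rw [this, Function.iterate_add_apply]
  rw [rev_iterate C]

/-- Membership in a trail does not depend on the range. -/
lemma mem_cyc {p : Fin n × Fin n} {e : Sym2 (Fin n)} :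
    e ∈ cyc T p ↔ ∃ t, cell T p t = e := by
  simp only [cyc, mem_image, mem_range]
  constructor
  · rintro ⟨t, -, rfl⟩; exact ⟨t, rfl⟩
  · rintro ⟨t, rfl⟩
    refine ⟨t % period T p, lt_of_lt_of_le (Nat.mod_lt _ (period_pos T p)) (period_le T p), ?_⟩
    rw [cell_eq, cell_eq, iterate_mod_period]

lemma cyc_eq_range (p : Fin n × Fin n) : cyc T p = (range (period T p)).image (cell T p) := by
  ext e
  rw [mem_cyc]
  simp only [mem_image, mem_range]
  constructor
  · rintro ⟨t, rfl⟩
    exact ⟨t % period T p, Nat.mod_lt _ (period_pos T p), by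
      rw [cell_eq, cell_eq, iterate_mod_period]⟩
  · rintro ⟨t, -, rfl⟩; exact ⟨t, rfl⟩

/-- Distinct times within a period give distinct edges. -/
lemma cell_inj (C : TrailCtx T G H) (p : Fin n × Fin n) (hp : edgeOf p ∈ H) {a b : ℕ}
    (ha : a < period T p) (hb : b < period T p) (h : cell T p a = cell T p b) : a = b := by
  wlog hab : a ≤ b generalizing a b with H'
  · exact (H' hb ha h.symm (by omega)).symm
  rw [cell_eq, cell_eq, edgeOf_eq_iff] at h
  rcases h with h | h
  · exact iterate_inj T p ha hb h.symm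
  · exfalso
    have e1 := inG_iterate C p hp a
    have e2 := inG_iterate C p hp b
    rw [h, edgeOf_rev, e1] at e2
    have hpar : Even a ↔ Even b := by tauto
    obtain ⟨m, hm⟩ : ∃ m, b = (m + m) + a := by
      refine ⟨(b - a) / 2, ?_⟩
      rcases Nat.even_or_odd (b - a) with ⟨k, hk⟩ | ⟨k, hk⟩
      · omega
      · exfalso
        have : b = a + 1 + 2 * k := by omega
        rw [this] at hpar
        simp only [Nat.even_add_one, Nat.even_add, even_two_mul, iff_true] at hpar
        tauto
    set e := (nxt T)^[a] p with he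
    set f := (nxt T)^[m] e with hf
    have k1 : (nxt T)^[m] f = rev e := by
      rw [hf, ← Function.iterate_add_apply, he, ← Function.iterate_add_apply, ← hm, h]
    have k2 := rev_iterate C e m
    rw [← hf, ← k1] at k2
    have k3 : rev f = f := ((nxt T).injective.iterate m) k2
    have k4 : edgeOf f ∈ H := (inH_iterate C _ _).mpr ((inH_iterate C _ _).mpr hp)
    apply C.loopless _ k4
    have := congrArg Prod.fst k3
    simp only [rev] at this
    simp [edgeOf, Sym2.mk_isDiag_iff, this]

lemma cyc_subset (C : TrailCtx T G H) {p q : Fin n × Fin n} {t : ℕ}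
    (h : edgeOf q = cell T p t) : cyc T q ⊆ cyc T p := by
  intro e he
  rw [mem_cyc] at he ⊢
  obtain ⟨i, rfl⟩ := he
  rw [cell_eq, eq_comm, edgeOf_eq_iff] at h
  rcases h with h | h
  · exact ⟨i + t, by rw [cell_eq, cell_eq, h, Function.iterate_add_apply]⟩
  · have hk : (nxt T)^[t + i * period T p] p = (nxt T)^[t] p := by
      rw [← iterate_mod_period T p (t + i * period T p), Nat.add_mul_mod_self_right,
        iterate_mod_period]
    have hi : i ≤ t + i * period T p :=
      le_add_left (Nat.le_mul_of_pos_right i (period_pos T p))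
    refine ⟨t + i * period T p - i, ?_⟩
    rw [cell_eq, cell_eq, h, ← hk, rev_iterate' C p hi, edgeOf_rev]

lemma cyc_shift (C : TrailCtx T G H) (p : Fin n × Fin n) (t : ℕ) :
    cyc T p ⊆ cyc T ((nxt T)^[t] p) := by
  have hk : (nxt T)^[t * period T p - t] ((nxt T)^[t] p) = p := by
    rw [← Function.iterate_add_apply,
      Nat.sub_add_cancel (Nat.le_mul_of_pos_right t (period_pos T p)),
      ← iterate_mod_period, Nat.mul_mod_left]
    rfl
  exact cyc_subset C (t := t * period T p - t) (by rw [cell_eq, hk])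

/-- Two trails are nested as soon as they share an edge. -/
lemma cyc_subset_of_mem (C : TrailCtx T G H) {p p' : Fin n × Fin n} {e : Sym2 (Fin n)}
    (h1 : e ∈ cyc T p) (h2 : e ∈ cyc T p') : cyc T p ⊆ cyc T p' := by
  obtain ⟨t, ht⟩ := mem_cyc.mp h1
  obtain ⟨t', ht'⟩ := mem_cyc.mp h2
  refine (cyc_shift C p t).trans (cyc_subset C (t := t') ?_)
  rw [← cell_eq, ht, ht']

lemma cyc_subset_H (C : TrailCtx T G H) {p : Fin n × Fin n} (hp : edgeOf p ∈ H) :
    cyc T p ⊆ H := by
  intro e he
  obtain ⟨t, rfl⟩ := mem_cyc.mp he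
  exact (inH_iterate C p t).mpr hp

lemma cyc_disjoint_H (C : TrailCtx T G H) {p : Fin n × Fin n} (hp : edgeOf p ∉ H) :
    ∀ e ∈ cyc T p, e ∉ H := by
  intro e he
  obtain ⟨t, rfl⟩ := mem_cyc.mp he
  exact fun h => hp ((inH_iterate C p t).mp h)

lemma done_zero (T : Trans n) (H : ESet n) : done T H 0 = ∅ := by
  simp [done]

lemma done_all (T : Trans n) (H : ESet n) : done T H (n * n) = H := by
  refine Finset.filter_true_of_mem fun e _ => ?_
  induction e with
  | h u v => exact ⟨(u, v), (finProdFinEquiv (u, v)).2, mem_cyc.mpr ⟨0, rfl⟩⟩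

lemma done_subset (T : Trans n) (H : ESet n) (c : ℕ) : done T H c ⊆ H := Finset.filter_subset _ _

/-- `done` is closed along trails. -/
lemma done_closed (C : TrailCtx T G H) (c : ℕ) (p : Fin n × Fin n) :
    edgeOf (nxt T p) ∈ done T H c ↔ edgeOf p ∈ done T H c := by
  simp only [done, mem_filter, inH_nxt C]
  refine and_congr_right fun _ => exists_congr fun d₀ => and_congr_right fun _ => ?_
  constructor
  · intro h
    obtain ⟨t, ht⟩ := mem_cyc.mp h
    refine cyc_subset C (q := nxt T p) (t := t) (by rw [ht]) ?_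
    have := cyc_shift C p 1
    simp only [Function.iterate_one] at this
    exact this (mem_cyc.mpr ⟨0, rfl⟩)
  · intro h
    obtain ⟨t, ht⟩ := mem_cyc.mp h
    exact cyc_subset C (q := p) (t := t) (by rw [ht]) (mem_cyc.mpr ⟨1, rfl⟩)

end Vale.Agent.P335
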