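import Mathlib
import Vale.Agent.P335.CDefs
import Vale.Agent.P335.Climb
import Vale.Agent.P335.Edit
import Vale.Agent.P335.Trail

/-!
Module C1: every valid pair is joined by legal steps.
-/

open Finset
open scoped Classical symmDiff

namespace Vale.Agent.P335

variable {n : ℕ} {T : Trans n} {G H : ESet n}

lemma inc_edgeOf (v : Fin n) {p : Fin n × Fin n} (h : p.1 ≠ p.2) :
    inc v (edgeOf p) = (if v = p.1 then 1 else 0) + (if v = p.2 then 1 else 0) := by
  simp only [inc, edgeOf, Sym2.mem_iff]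
  split_ifs <;> grind

lemma nxt_fst (T : Trans n) (p : Fin n × Fin n) : (nxt T p).1 = p.2 := rfl

/-- The vertex at a position of a trail. -/
noncomputable def pos (T : Trans n) (p₀ : Fin n × Fin n) (t : ℕ) : Fin n :=
  ((nxt T)^[t] p₀).1

lemma pos_succ (T : Trans n) (p₀ : Fin n × Fin n) (t : ℕ) :
    pos T p₀ (t + 1) = ((nxt T)^[t] p₀).2 := by
  rw [pos, Function.iterate_succ_apply', nxt_fst]

lemma pos_ne_succ (C : TrailCtx T G H) {p₀ : Fin n × Fin n} (hp : edgeOf p₀ ∈ H) (t : ℕ) :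
    pos T p₀ t ≠ pos T p₀ (t + 1) := by
  intro h
  rw [pos_succ] at h
  apply C.loopless _ ((inH_iterate C p₀ t).mpr hp)
  simpa [edgeOf, Sym2.mk_isDiag_iff, pos] using h

lemma seg_injOn (C : TrailCtx T G H) {p₀ : Fin n × Fin n} (hp : edgeOf p₀ ∈ H) {s e : ℕ}
    (hse : e ≤ s + period T p₀) : Set.InjOn (cell T p₀) (Ico s e : Finset ℕ) := by
  intro a ha b hb h
  simp only [coe_Ico, Set.mem_Ico] at ha hb
  have hL := period_pos T p₀
  have h' : a % period T p₀ = b % period T p₀ := by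
    refine cell_inj C p₀ hp (Nat.mod_lt _ hL) (Nat.mod_lt _ hL) ?_
    rw [cell_eq, cell_eq, iterate_mod_period, iterate_mod_period]
    exact h
  rcases le_total a b with hab | hab
  · have hd := (Nat.modEq_iff_dvd' hab).mp h'
    have hz : b - a = 0 := Nat.eq_zero_of_dvd_of_lt hd (by omega)
    omega
  · have hd := (Nat.modEq_iff_dvd' hab).mp h'.symm
    have hz : a - b = 0 := Nat.eq_zero_of_dvd_of_lt hd (by omega)
    omega

lemma seg_subset_H (C : TrailCtx T G H) {p₀ : Fin n × Fin n} (hp : edgeOf p₀ ∈ H) (s e : ℕ) :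
    seg T p₀ s e ⊆ H := by
  intro x hx
  simp only [seg, mem_image] at hx
  obtain ⟨t, -, rfl⟩ := hx
  exact (inH_iterate C p₀ t).mpr hp

lemma seg_full (p₀ : Fin n × Fin n) (s : ℕ) :
    seg T p₀ s (s + period T p₀) = cyc T p₀ := by
  ext x
  rw [mem_cyc]
  simp only [seg, mem_image, mem_Ico]
  constructor
  · rintro ⟨t, -, rfl⟩; exact ⟨t, rfl⟩
  · rintro ⟨t, rfl⟩
    have hL := period_pos T p₀
    obtain ⟨u, hu, hmod⟩ :
        ∃ u, (s ≤ u ∧ u < s + period T p₀) ∧ u % period T p₀ = t % period T p₀ := by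
      refine ⟨s + (t + (s * period T p₀ - s)) % period T p₀,
        ⟨by omega, by have := Nat.mod_lt (t + (s * period T p₀ - s)) hL; omega⟩, ?_⟩
      rw [Nat.add_mod_mod]
      have : s + (t + (s * period T p₀ - s)) = t + s * period T p₀ := by
        have := Nat.le_mul_of_pos_right s hL
        omega
      rw [this, Nat.add_mul_mod_self_right]
    refine ⟨u, hu, ?_⟩
    rw [cell_eq, cell_eq, ← iterate_mod_period T p₀ u, hmod, iterate_mod_period]

/-- Degrees after flipping a segment of an alternating trail. -/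
lemma seg_degree (C : TrailCtx T G H) {d : Fin n → ℕ} {W : ESet n} (hW : Realizes d W)
    {p₀ : Fin n × Fin n} (hp : edgeOf p₀ ∈ H) (r : ℕ)
    (hpar : ∀ t, cell T p₀ t ∈ W ↔ Even (t + r)) {s e : ℕ} (hse : s ≤ e)
    (hle : e ≤ s + period T p₀) :
    (∀ x ∈ W ∆ seg T p₀ s e, ¬ x.IsDiag) ∧ ∀ v,
      (degE (W ∆ seg T p₀ s e) v : ℤ) = d v +
        (-(-1) ^ (s + r) * (if v = pos T p₀ s then 1 else 0) +
          (-1) ^ (e + r) * (if v = pos T p₀ e then 1 else 0)) := by
  have hloop : ∀ x ∈ W ∆ seg T p₀ s e, ¬ x.IsDiag := by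
    intro x hx
    rcases Finset.mem_symmDiff.mp hx with ⟨h, -⟩ | ⟨h, -⟩
    · exact hW.1 x h
    · exact C.loopless x (seg_subset_H C hp s e h)
  refine ⟨hloop, fun v => ?_⟩
  rw [degE_eq_sum hloop, sum_symmDiff_eq, ← degE_eq_sum hW.1, hW.2 v, seg,
    Finset.sum_image (seg_injOn C hp hle)]
  congr 1
  clear hle hloop
  induction e, hse using Nat.le_induction with
  | base => simp only [Finset.Ico_self, Finset.sum_empty]; split_ifs <;> ring
  | succ e hse ih =>
    rw [Finset.sum_Ico_succ_top hse, ih, cell_eq,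
      inc_edgeOf v (by have := pos_ne_succ C hp e; rwa [pos_succ] at this), ← pos_succ,
      ← cell_eq]
    have h1 : (if cell T p₀ e ∈ W then (-1:ℤ) else 1) = -(-1) ^ (e + r) := by
      rcases Nat.even_or_odd (e + r) with h | h
      · rw [if_pos ((hpar e).mpr h), h.neg_one_pow]
      · rw [if_neg (fun h' => (Nat.not_even_iff_odd.mpr h) ((hpar e).mp h')), h.neg_one_pow]
        norm_num
    have h2 : ((-1 : ℤ)) ^ (e + 1 + r) = -(-1) ^ (e + r) := by
      rw [show e + 1 + r = (e + r) + 1 by omega, pow_succ]; ring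
    have h3 : pos T p₀ e = ((nxt T)^[e] p₀).1 := rfl
    rw [h1, h2, h3]
    ring

/-- Spread defects of segments can be repaired. -/
lemma seg_near (C : TrailCtx T G H) {d : Fin n → ℕ} {W : ESet n} (hW : Realizes d W)
    {p₀ : Fin n × Fin n} (hp : edgeOf p₀ ∈ H) (r : ℕ)
    (hpar : ∀ t, cell T p₀ t ∈ W ↔ Even (t + r)) {s e : ℕ} (hse : s ≤ e)
    (hle : e ≤ s + period T p₀)
    (h : (Even (s + r) ∧ Even (e + r) ∧ d (pos T p₀ s) ≤ d (pos T p₀ e)) ∨
      (Odd (s + r) ∧ Odd (e + r) ∧ d (pos T p₀ e) ≤ d (pos T p₀ s))) :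
    ∃ M, Realizes d M ∧ (M ∆ (W ∆ seg T p₀ s e)).card ≤ 2 := by
  obtain ⟨hloop, hdeg⟩ := seg_degree C hW hp r hpar hse hle
  rcases h with ⟨h1, h2, h3⟩ | ⟨h1, h2, h3⟩
  · refine repair_defect (a := pos T p₀ e) (b := pos T p₀ s) hloop (fun v => ?_) h3
    rw [hdeg v, h1.neg_one_pow, h2.neg_one_pow]
    ring
  · refine repair_defect (a := pos T p₀ s) (b := pos T p₀ e) hloop (fun v => ?_) h3
    rw [hdeg v, h1.neg_one_pow, h2.neg_one_pow]
    ring

lemma seg_diff (p₀ : Fin n × Fin n) {s e p q : ℕ} (h1 : s ≤ p + 1) (h2 : p ≤ s + 1)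
    (h3 : e ≤ q + 1) (h4 : q ≤ e + 1) :
    (seg T p₀ s e ∆ seg T p₀ p q).card ≤ 2 := by
  refine (card_symmDiff_image_le _ _ _).trans ?_
  refine le_trans (Finset.card_le_card (t := ({min s p, min e q} : Finset ℕ)) ?_)
    Finset.card_le_two
  intro x hx
  simp only [Finset.mem_symmDiff, mem_Ico, mem_insert, mem_singleton] at hx ⊢
  omega

/-- The height of a cell. -/
noncomputable def height (T : Trans n) (d : Fin n → ℕ) (p₀ : Fin n × Fin n) (t : ℕ) : ℤ :=
  if Even t then (d (pos T p₀ t) : ℤ) - d (pos T p₀ (t + 1))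
  else (d (pos T p₀ (t + 1)) : ℤ) - d (pos T p₀ t)

/-- From two comparable heights, a good choice of endpoints. -/
lemma height_choice (T : Trans n) (d : Fin n → ℕ) (p₀ : Fin n × Fin n) {α β : ℕ}
    (h : height T d p₀ α ≤ height T d p₀ β) :
    ∃ s e, α ≤ s ∧ s ≤ α + 1 ∧ β ≤ e ∧ e ≤ β + 1 ∧
      ((Even s ∧ Even e ∧ d (pos T p₀ s) ≤ d (pos T p₀ e)) ∨
        (Odd s ∧ Odd e ∧ d (pos T p₀ e) ≤ d (pos T p₀ s))) := by
  unfold height at h
  rcases Nat.even_or_odd α with ha | ha <;> rcases Nat.even_or_odd β with hb | hb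
  · rw [if_pos ha, if_pos hb] at h
    by_cases hh : d (pos T p₀ α) ≤ d (pos T p₀ β)
    · exact ⟨α, β, le_rfl, by omega, le_rfl, by omega, Or.inl ⟨ha, hb, hh⟩⟩
    · exact ⟨α + 1, β + 1, by omega, le_rfl, by omega, le_rfl,
        Or.inr ⟨ha.add_one, hb.add_one, by omega⟩⟩
  · rw [if_pos ha, if_neg (Nat.not_even_iff_odd.mpr hb)] at h
    by_cases hh : d (pos T p₀ α) ≤ d (pos T p₀ (β + 1))
    · exact ⟨α, β + 1, le_rfl, by omega, by omega, le_rfl, Or.inl ⟨ha, hb.add_one, hh⟩⟩
    · exact ⟨α + 1, β, by omega, le_rfl, le_rfl, by omega, Or.inr ⟨ha.add_one, hb, by omega⟩⟩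
  · rw [if_neg (Nat.not_even_iff_odd.mpr ha), if_pos hb] at h
    by_cases hh : d (pos T p₀ (α + 1)) ≤ d (pos T p₀ β)
    · exact ⟨α + 1, β, by omega, le_rfl, le_rfl, by omega, Or.inl ⟨ha.add_one, hb, hh⟩⟩
    · exact ⟨α, β + 1, le_rfl, by omega, by omega, le_rfl, Or.inr ⟨ha, hb.add_one, by omega⟩⟩
  · rw [if_neg (Nat.not_even_iff_odd.mpr ha), if_neg (Nat.not_even_iff_odd.mpr hb)] at h
    by_cases hh : d (pos T p₀ (α + 1)) ≤ d (pos T p₀ (β + 1))
    · exact ⟨α + 1, β + 1, by omega, le_rfl, by omega, le_rfl,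
        Or.inl ⟨ha.add_one, hb.add_one, hh⟩⟩
    · exact ⟨α, β, le_rfl, by omega, le_rfl, by omega, Or.inr ⟨ha, hb, by omega⟩⟩

lemma height_periodic (C : TrailCtx T G H) (d : Fin n → ℕ) {p₀ : Fin n × Fin n}
    (hp : edgeOf p₀ ∈ H) (t : ℕ) : height T d p₀ (t + period T p₀) = height T d p₀ t := by
  have hev := period_even C p₀ hp
  have hp1 : ∀ u, pos T p₀ (u + period T p₀) = pos T p₀ u := fun u => by
    rw [pos, pos, iterate_add_period]
  unfold height
  rw [hp1, show t + period T p₀ + 1 = t + 1 + period T p₀ by omega, hp1]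
  simp [Nat.even_add, hev]

/-- If both sides of a segment can be repaired, every nearby segment gives nearby realizations. -/
lemma near_pair (C : TrailCtx T G H) {d : Fin n → ℕ} {Z : ESet n} (hZ : Realizes d Z)
    (hZ' : Realizes d (Z ∆ H)) {p₀ : Fin n × Fin n} (hp : edgeOf p₀ ∈ H)
    (hpar : ∀ t, cell T p₀ t ∈ Z ↔ Even t) {i j : ℕ} {p q : ℕ}
    (hfull : Realizes d (Z ∆ cyc T p₀)) (hfull' : Realizes d ((Z ∆ cyc T p₀) ∆ H))
    (hi : 1 ≤ p) (hpq : p ≤ q) (hle : q ≤ p + period T p₀)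
    (hij : i = p - 1 ∧ j = q - 1)
    (hmeet : Meet (height T d p₀ i) (height T d p₀ (i + 1)) (height T d p₀ j)
      (height T d p₀ (j + 1))) :
    ∃ M N, Realizes d M ∧ Realizes d N ∧ (M ∆ (Z ∆ seg T p₀ p q)).card ≤ edit ∧
      (N ∆ ((Z ∆ seg T p₀ p q) ∆ H)).card ≤ edit := by
  have hcomm : ∀ s e, (Z ∆ seg T p₀ s e) ∆ H = (Z ∆ H) ∆ seg T p₀ s e := fun s e =>
    symmDiff_right_comm _ _ _
  by_cases hsmall : q ≤ p + 1
  · have hc : (seg T p₀ p q).card ≤ edit := by
      refine le_trans Finset.card_image_le ?_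
      simp only [Nat.card_Ico, edit]
      omega
    refine ⟨Z, Z ∆ H, hZ, hZ', ?_, ?_⟩
    · rwa [symmDiff_symmDiff_cancel_left]
    · rwa [hcomm, symmDiff_symmDiff_cancel_left]
  by_cases hlarge : p + period T p₀ ≤ q + 1
  · have hc : (cyc T p₀ ∆ seg T p₀ p q).card ≤ edit := by
      rw [← seg_full p₀ p]
      refine le_trans (seg_diff p₀ (by omega) (by omega) (by omega) (by omega)) ?_
      simp [edit]
    refine ⟨Z ∆ cyc T p₀, (Z ∆ cyc T p₀) ∆ H, hfull, hfull', ?_, ?_⟩
    · rwa [symmDiff_symmDiff_symmDiff_comm, symmDiff_self, bot_symmDiff]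
    · rwa [symmDiff_symmDiff_symmDiff_comm, symmDiff_self, symmDiff_bot,
        symmDiff_symmDiff_symmDiff_comm, symmDiff_self, bot_symmDiff]
  have hparH : ∀ t, cell T p₀ t ∈ Z ∆ H ↔ Even (t + 1) := by
    intro t
    have hH : cell T p₀ t ∈ H := (inH_iterate C p₀ t).mpr hp
    simp [Finset.mem_symmDiff, hH, hpar t, Nat.even_add_one]
  have pick : ∀ {α β : ℕ}, p ≤ α + 1 → α ≤ p → q ≤ β + 1 → β ≤ q →
      height T d p₀ α ≤ height T d p₀ β →
      ∃ M, Realizes d M ∧ (M ∆ (Z ∆ seg T p₀ p q)).card ≤ edit := by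
    intro α β a1 a2 a3 a4 hh
    obtain ⟨s, e, b1, b2, b3, b4, hgood⟩ := height_choice T d p₀ hh
    obtain ⟨M, hM, hM2⟩ := seg_near C hZ hp 0 (by simpa using hpar) (s := s) (e := e)
      (by omega) (by omega) (by simpa using hgood)
    refine ⟨M, hM, ?_⟩
    have h2 : ((Z ∆ seg T p₀ s e) ∆ (Z ∆ seg T p₀ p q)).card ≤ 2 := by
      rw [symmDiff_symmDiff_symmDiff_comm, symmDiff_self, bot_symmDiff]
      exact seg_diff p₀ (by omega) (by omega) (by omega) (by omega)
    exact le_trans (card_symmDiff_le _ _ _) (le_trans (add_le_add hM2 h2) (by simp [edit]))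
  have pick' : ∀ {α β : ℕ}, p ≤ α + 1 → α ≤ p → q ≤ β + 1 → β ≤ q →
      height T d p₀ β ≤ height T d p₀ α →
      ∃ N, Realizes d N ∧ (N ∆ ((Z ∆ seg T p₀ p q) ∆ H)).card ≤ edit := by
    intro α β a1 a2 a3 a4 hh
    obtain ⟨e, s, b1, b2, b3, b4, hgood⟩ := height_choice T d p₀ hh
    have hgood' : (Even (s + 1) ∧ Even (e + 1) ∧ d (pos T p₀ s) ≤ d (pos T p₀ e)) ∨
        (Odd (s + 1) ∧ Odd (e + 1) ∧ d (pos T p₀ e) ≤ d (pos T p₀ s)) := by
      rcases hgood with ⟨h1, h2, h3⟩ | ⟨h1, h2, h3⟩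
      · exact Or.inr ⟨h2.add_one, h1.add_one, h3⟩
      · exact Or.inl ⟨h2.add_one, h1.add_one, h3⟩
    obtain ⟨N, hN, hN2⟩ := seg_near C hZ' hp 1 hparH (s := s) (e := e) (by omega) (by omega)
      hgood'
    refine ⟨N, hN, ?_⟩
    rw [hcomm]
    have h2 : (((Z ∆ H) ∆ seg T p₀ s e) ∆ ((Z ∆ H) ∆ seg T p₀ p q)).card ≤ 2 := by
      rw [symmDiff_symmDiff_symmDiff_comm, symmDiff_self, bot_symmDiff]
      exact seg_diff p₀ (by omega) (by omega) (by omega) (by omega)
    exact le_trans (card_symmDiff_le _ _ _) (le_trans (add_le_add hN2 h2) (by simp [edit]))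
  obtain ⟨hi', hj'⟩ := hij
  unfold Meet at hmeet
  simp only [min_le_iff, le_max_iff] at hmeet
  obtain ⟨hm1, hm2⟩ := hmeet
  obtain ⟨M, hM, hM2⟩ : ∃ M, Realizes d M ∧ (M ∆ (Z ∆ seg T p₀ p q)).card ≤ edit := by
    rcases hm1 with (h | h) | (h | h) <;> exact pick (by omega) (by omega) (by omega) (by omega) h
  obtain ⟨N, hN, hN2⟩ :
      ∃ N, Realizes d N ∧ (N ∆ ((Z ∆ seg T p₀ p q) ∆ H)).card ≤ edit := by
    rcases hm2 with (h | h) | (h | h) <;> exact pick' (by omega) (by omega) (by omega) (by omega) h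
  exact ⟨M, N, hM, hN, hM2, hN2⟩

lemma col_symmDiff (X H : ESet n) (v z : Fin n) : col X (X ∆ H) v z =
    if s(v, z) ∈ H then (if s(v, z) ∈ X then 0 else 1) else 2 := by
  simp only [col, Finset.mem_symmDiff]
  split_ifs <;> tauto

lemma mem_state (c : ℕ) (p₀ : Fin n × Fin n) (p q : ℕ) (x : Sym2 (Fin n)) :
    x ∈ state T G H c p₀ p q ↔ (x ∈ G ↔ ¬ (x ∈ done T H c ∨ x ∈ seg T p₀ p q)) := by
  simp only [state, Finset.mem_symmDiff, mem_union]
  tauto

lemma boundary_dart (C : TrailCtx T G H) (p₀ : Fin n × Fin n) {p q : ℕ} (h1 : 1 ≤ p)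
    {v w : Fin n} (hw : s(v, w) ∈ seg T p₀ p q) (hw' : s(v, T v w) ∉ seg T p₀ p q) :
    (v, w) = ((((nxt T)^[q - 1] p₀).2, ((nxt T)^[q - 1] p₀).1) : Fin n × Fin n) ∨
      (v, w) = (nxt T)^[p] p₀ := by
  simp only [seg, mem_image, mem_Ico] at hw
  obtain ⟨t, ⟨ht1, ht2⟩, ht3⟩ := hw
  have e : edgeOf ((nxt T)^[t] p₀) = edgeOf (w, v) := by
    rw [← cell_eq, ht3]; exact Sym2.eq_swap
  rw [edgeOf_eq_iff] at e
  rcases e with e | e
  · left
    have hq : t + 1 = q := by
      by_contra hq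
      apply hw'
      simp only [seg, mem_image, mem_Ico]
      refine ⟨t + 1, ⟨by omega, by omega⟩, ?_⟩
      rw [cell_eq, Function.iterate_succ_apply', ← e]
      rfl
    have : q - 1 = t := by omega
    rw [this, ← e]
  · right
    have e' : (nxt T)^[t] p₀ = (v, w) := by
      have := congrArg rev e
      simpa [rev] using this.symm
    have hq : t = p := by
      by_contra hq
      apply hw'
      simp only [seg, mem_image, mem_Ico]
      refine ⟨t - 1, ⟨by omega, by omega⟩, ?_⟩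
      have hh := rev_iterate' C p₀ (i := 1) (t := t) (by omega)
      rw [e'] at hh
      simp only [Function.iterate_one] at hh
      rw [cell_eq, ← edgeOf_rev, ← hh]
      rfl
    rw [← hq, e']

/-- Where the colouring of a state can fail to alternate. -/
lemma bad_state_le (C : TrailCtx T G H) (c : ℕ) {p₀ : Fin n × Fin n} (hp : edgeOf p₀ ∈ H)
    {p q : ℕ} (h1 : 1 ≤ p)
    (hdisj : Disjoint (done T H c) (seg T p₀ p q) ∨ q ≤ p) :
    (bad (state T G H c p₀ p q) (state T G H c p₀ p q ∆ H) T).card ≤ edit := by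
  set F := seg T p₀ p q with hF
  set P := done T H c with hP
  set X := state T G H c p₀ p q with hX
  set a1 := ((((nxt T)^[q - 1] p₀).2, ((nxt T)^[q - 1] p₀).1) : Fin n × Fin n) with ha1
  set a2 := (nxt T)^[p] p₀ with ha2
  refine le_trans (Finset.card_le_card (t := ({a1, a2, (a1.1, T a1.1 a1.2),
    (a2.1, T a2.1 a2.2)} : Finset _)) ?_) (le_trans (Finset.card_le_four) (by simp [edit]))
  rintro ⟨v, u⟩ hb
  simp only [bad, mem_filter, mem_univ, true_and] at hb
  -- the two edges of the transition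
  have hH : s(v, T v u) ∈ H ↔ s(v, u) ∈ H := by
    have := inH_nxt C (u, v)
    simpa [edgeOf, nxt, Sym2.eq_swap (a := u) (b := v)] using this
  have hdone : s(v, T v u) ∈ P ↔ s(v, u) ∈ P := by
    have := done_closed C c (u, v)
    simpa [edgeOf, nxt, hP, Sym2.eq_swap (a := u) (b := v)] using this
  have hcol : ∀ z, col X (X ∆ H) v z =
      if s(v, z) ∈ H then (if s(v, z) ∈ X then 0 else 1) else 2 := col_symmDiff X H v
  -- key: membership of the segment differs
  have hne : s(v, u) ∈ H ∧ ¬ (s(v, T v u) ∈ F ↔ s(v, u) ∈ F) := by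
    by_cases hu : s(v, u) ∈ H
    · refine ⟨hu, fun hiff => hb ?_⟩
      have hu' := hH.mpr hu
      refine ⟨?_, ?_⟩
      · have hg := inG_nxt C (u, v) (by simpa [edgeOf, Sym2.eq_swap (a := u) (b := v)] using hu)
        simp [edgeOf, nxt, Sym2.eq_swap (a := u) (b := v)] at hg
        have hx : ∀ z, s(v, z) ∈ X ↔
            (s(v, z) ∈ G ↔ ¬ (s(v, z) ∈ P ∨ s(v, z) ∈ F)) := fun z => mem_state c p₀ p q _
        rw [hcol, hcol, if_pos hu, if_pos hu']
        simp only [hx, hg, hdone, hiff]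
        by_cases hgu : s(v, u) ∈ G <;> by_cases hpu : s(v, u) ∈ P <;>
          by_cases hfu : s(v, u) ∈ F <;> simp [hgu, hpu, hfu, opp]
      · rw [hcol, if_pos hu]
        split_ifs <;> simp
    · exfalso
      apply hb
      have hu' : s(v, T v u) ∉ H := fun h => hu (hH.mp h)
      refine ⟨by rw [hcol, hcol, if_neg hu, if_neg hu']; rfl, fun _ => ?_⟩
      obtain ⟨-, h2⟩ := C.good v u
      rw [col_split, if_neg hu] at h2
      exact h2 rfl
  have key : ∀ w, s(v, w) ∈ F → s(v, T v w) ∉ F → (v, w) = a1 ∨ (v, w) = a2 :=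
    fun w hw hw' => boundary_dart C p₀ h1 hw hw'
  obtain ⟨-, hne⟩ := hne
  simp only [mem_insert, mem_singleton]
  by_cases hin : s(v, u) ∈ F
  · rcases key u hin (fun h => hne (iff_of_true h hin)) with h | h
    · exact Or.inl h
    · exact Or.inr (Or.inl h)
  · have hin' : s(v, T v u) ∈ F := by tauto
    rcases key (T v u) hin' (by rwa [C.invol v u]) with h | h
    · refine Or.inr (Or.inr (Or.inl ?_))
      rw [← h]; simp [C.invol v u]
    · refine Or.inr (Or.inr (Or.inr ?_))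
      rw [← h]; simp [C.invol v u]

lemma ctx_of_valid {d : Fin n → ℕ} {G G' : ESet n} (hG : Realizes d G) (hG' : Realizes d G')
    (hT : T ∈ valid G G') : TrailCtx T G (G ∆ G') := by
  simp only [valid, mem_filter, mem_univ, true_and] at hT
  refine ⟨hT.1, ?_, fun v u => ?_⟩
  · intro e he
    rcases Finset.mem_symmDiff.mp he with ⟨h, -⟩ | ⟨h, -⟩
    · exact hG.1 e h
    · exact hG'.1 e h
  · have hc : ∀ z, col (G ∩ (G ∆ G')) ((G ∆ G') \ G) v z = col G G' v z := by
      intro z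
      simp only [col, mem_inter, mem_sdiff, Finset.mem_symmDiff]
      split_ifs <;> tauto
    have := hT.2 v u
    unfold GoodAt at *
    rwa [hc, hc]

/-- Flipping one whole trail keeps the degrees. -/
lemma flip_cyc (C : TrailCtx T G H) {d : Fin n → ℕ} {W : ESet n} (hW : Realizes d W)
    {p₀ : Fin n × Fin n} (hp : edgeOf p₀ ∈ H) (r : ℕ)
    (hpar : ∀ t, cell T p₀ t ∈ W ↔ Even (t + r)) : Realizes d (W ∆ cyc T p₀) := by
  obtain ⟨hl, hd⟩ := seg_degree C hW hp r hpar (Nat.zero_le (period T p₀)) (by omega)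
  have hfull : seg T p₀ 0 (period T p₀) = cyc T p₀ := by
    simpa using seg_full (T := T) p₀ 0
  rw [hfull] at hl hd
  refine ⟨hl, fun v => ?_⟩
  have := hd v
  have e2 : pos T p₀ (period T p₀) = pos T p₀ 0 := by
    simpa [pos] using congrArg Prod.fst (iterate_period T p₀)
  have hL := period_even C p₀ hp
  rw [e2, zero_add, pow_add, hL.neg_one_pow] at this
  have h0 : (degE (W ∆ cyc T p₀) v : ℤ) = d v := by rw [this]; ring
  exact_mod_cast h0

theorem pathsExist : PathsExist := by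
  intro n d G G' T hG hG' hT
  set H := G ∆ G' with hH
  have C : TrailCtx T G H := ctx_of_valid hG hG' hT
  have hGH : G ∆ H = G' := symmDiff_symmDiff_cancel_left G G'
  suffices main : ∀ c, c ≤ n * n → Realizes d (G ∆ done T H c) ∧
      Realizes d ((G ∆ done T H c) ∆ H) ∧
      Relation.ReflTransGen (NiceStep d G G' T) G (G ∆ done T H c) by
    obtain ⟨-, -, h⟩ := main (n * n) le_rfl
    rwa [done_all, hGH] at h
  intro c
  induction c with
  | zero =>
    intro _
    simp only [done_zero, ← Finset.bot_eq_empty, symmDiff_bot, hGH]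
    exact ⟨hG, hG', Relation.ReflTransGen.refl⟩
  | succ c ih =>
    intro hc
    obtain ⟨hZ, hZ', hreach⟩ := ih (by omega)
    set Z := G ∆ done T H c with hZdef
    set d₀ : Fin n × Fin n := finProdFinEquiv.symm ⟨c, by omega⟩ with hd₀
    have hsucc : done T H (c + 1) = done T H c ∪ (cyc T d₀).filter (fun e => e ∈ H) := by
      ext e
      simp only [done, mem_filter, mem_union]
      constructor
      · rintro ⟨he, d₁, hd₁, hmem⟩
        rcases Nat.lt_or_ge (finProdFinEquiv d₁).1 c with h | h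
        · exact Or.inl ⟨he, d₁, h, hmem⟩
        · right
          have : d₁ = d₀ := by
            rw [hd₀, Equiv.eq_symm_apply]; apply Fin.ext; show _ = c; omega
          subst this
          exact ⟨hmem, he⟩
      · rintro (⟨he, d₁, hd₁, hmem⟩ | ⟨hmem, he⟩)
        · exact ⟨he, d₁, by omega, hmem⟩
        · exact ⟨he, d₀, by rw [hd₀, Equiv.apply_symm_apply]; exact Nat.lt_succ_self c, hmem⟩
    by_cases hd₀H : edgeOf d₀ ∈ H
    swap
    · have : done T H (c + 1) = done T H c := by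
        rw [hsucc, Finset.filter_false_of_mem (cyc_disjoint_H C hd₀H), union_empty]
      rw [this]; exact ⟨hZ, hZ', hreach⟩
    rw [Finset.filter_true_of_mem (fun e he => cyc_subset_H C hd₀H he)] at hsucc
    by_cases hdis : Disjoint (done T H c) (cyc T d₀)
    swap
    · have : done T H (c + 1) = done T H c := by
        rw [hsucc, Finset.union_eq_left]
        obtain ⟨e, he1, he2⟩ := Finset.not_disjoint_iff.mp hdis
        simp only [done, mem_filter] at he1
        obtain ⟨-, d₁, hd₁, hmem⟩ := he1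
        intro x hx
        simp only [done, mem_filter]
        exact ⟨cyc_subset_H C hd₀H hx, d₁, hd₁, cyc_subset_of_mem C he2 hmem hx⟩
      rw [this]; exact ⟨hZ, hZ', hreach⟩
    -- a starting dart with its edge in `G`
    obtain ⟨p₀, hp, hpG, hcyc⟩ :
        ∃ p₀, edgeOf p₀ ∈ H ∧ edgeOf p₀ ∈ G ∧ cyc T p₀ = cyc T d₀ := by
      by_cases hg : edgeOf d₀ ∈ G
      · exact ⟨d₀, hd₀H, hg, rfl⟩
      · refine ⟨nxt T d₀, (inH_nxt C d₀).mpr hd₀H, (inG_nxt C d₀ hd₀H).mpr hg,
          subset_antisymm (cyc_subset C (t := 1) ?_) ?_⟩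
        · simp [cell_eq]
        · simpa using cyc_shift C d₀ 1
    rw [← hcyc] at hdis hsucc
    have hZcyc : Z ∆ cyc T p₀ = G ∆ done T H (c + 1) := by
      rw [hsucc, hZdef, symmDiff_assoc]
      congr 1
      exact hdis.symmDiff_eq_sup
    have hpar : ∀ t, cell T p₀ t ∈ Z ↔ Even t := by
      intro t
      have hmem : cell T p₀ t ∉ done T H c :=
        fun h => Finset.disjoint_left.mp hdis h (mem_cyc.mpr ⟨t, rfl⟩)
      have hg := inG_iterate C p₀ hp t
      rw [← cell_eq] at hg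
      simp only [hZdef, Finset.mem_symmDiff, hmem, not_false_eq_true, and_true, false_and,
        or_false, hg, hpG, true_iff]
    have hparH : ∀ t, cell T p₀ t ∈ Z ∆ H ↔ Even (t + 1) := by
      intro t
      have hH' : cell T p₀ t ∈ H := (inH_iterate C p₀ t).mpr hp
      simp [Finset.mem_symmDiff, hH', hpar t, Nat.even_add_one]
    have hfull : Realizes d (Z ∆ cyc T p₀) := flip_cyc C hZ hp 0 (by simpa using hpar)
    have hfull' : Realizes d ((Z ∆ cyc T p₀) ∆ H) := by
      rw [symmDiff_right_comm]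
      exact flip_cyc C hZ' hp 1 hparH
    refine ⟨hZcyc ▸ hfull, hZcyc ▸ hfull', ?_⟩
    -- the path along the trail
    set L := period T p₀ with hL
    have hLpos : 2 ≤ L := two_le_period C p₀ hp
    have hLn : L ≤ n * n := period_le T p₀
    set g := height T d p₀ with hg
    have hper : ∀ t, g (t + L) = g t := height_periodic C d hp
    obtain ⟨t₀, ht₀, hmax⟩ := Finset.exists_max_image (Ico L (2 * L)) g ⟨L, by simp; omega⟩
    simp only [mem_Ico] at ht₀
    obtain ⟨t₁, ht₁, hmin⟩ := Finset.exists_min_image (Ico (t₀ + 1) (t₀ + L)) g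
      ⟨t₀ + 1, by simp; omega⟩
    simp only [mem_Ico] at ht₁
    have hmax' : ∀ t, t < 3 * L → g t ≤ g t₀ := by
      intro t ht
      rcases Nat.lt_or_ge t L with h | h
      · have := hmax (t + L) (by simp; omega)
        rwa [hper] at this
      · rcases Nat.lt_or_ge t (2 * L) with h' | h'
        · exact hmax t (by simp; omega)
        · have := hmax (t - L) (by simp; omega)
          rwa [← hper (t - L), Nat.sub_add_cancel (by omega)] at this
    have hmin' : ∀ t, t₀ ≤ t → t ≤ t₀ + L → g t₁ ≤ g t := by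
      intro t h1 h2
      have h3 : g t₁ ≤ g t₀ := hmax' t₁ (by omega)
      rcases eq_or_lt_of_le h1 with rfl | h1'
      · exact h3
      · rcases eq_or_lt_of_le h2 with rfl | h2'
        · rwa [hper]
        · exact hmin t (by simp; omega)
    set m := t₁ - t₀ with hm
    set k := L - m with hk
    have hNiceAt : ∀ {p q : ℕ}, 1 ≤ p → p ≤ q → q ≤ 3 * L → q ≤ p + L → ∀ {M N : ESet n},
        Realizes d M → Realizes d N → (M ∆ (Z ∆ seg T p₀ p q)).card ≤ edit →
        (N ∆ ((Z ∆ seg T p₀ p q) ∆ H)).card ≤ edit → Nice d G G' T M := by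
      intro p q h1 h2 h3 h4 M N hM hN e1 e2
      have hsub : Disjoint (done T H c) (seg T p₀ p q) := by
        refine hdis.mono_right ?_
        intro x hx
        simp only [seg, mem_image] at hx
        obtain ⟨t, -, rfl⟩ := hx
        exact mem_cyc.mpr ⟨t, rfl⟩
      have hst : state T G H c p₀ p q = Z ∆ seg T p₀ p q := by
        rw [state, hZdef, symmDiff_assoc]
        congr 1
        exact hsub.symmDiff_eq_sup.symm
      refine ⟨c, p₀, p, q, N, by omega, by omega, by omega, hM, hN, ?_, ?_, ?_⟩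
      · rwa [← hH, hst]
      · rwa [← hH, hst]
      · exact bad_state_le C c hp h1 (Or.inl hsub)
    let P : ℕ → ℕ → Prop := fun i j => ∀ M N : ESet n, Realizes d M → Realizes d N →
      (M ∆ (Z ∆ seg T p₀ (t₀ - j) (t₀ + i + 1))).card ≤ edit →
      (N ∆ ((Z ∆ seg T p₀ (t₀ - j) (t₀ + i + 1)) ∆ H)).card ≤ edit →
      Relation.ReflTransGen (NiceStep d G G' T) G M
    have hstepcard : ∀ {M M' : ESet n} {p q p' q' : ℕ}, p ≤ p' + 1 → p' ≤ p + 1 → q ≤ q' + 1 →
        q' ≤ q + 1 → (M ∆ (Z ∆ seg T p₀ p q)).card ≤ edit →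
        (M' ∆ (Z ∆ seg T p₀ p' q')).card ≤ edit → (M ∆ M').card ≤ 4 * edit := by
      intro M M' p q p' q' a b c' e h h'
      have h2 : ((Z ∆ seg T p₀ p q) ∆ (Z ∆ seg T p₀ p' q')).card ≤ 2 := by
        rw [symmDiff_symmDiff_symmDiff_comm, symmDiff_self, bot_symmDiff]
        exact seg_diff p₀ (by omega) (by omega) (by omega) (by omega)
      have := card_symmDiff_le M (Z ∆ seg T p₀ p q) M'
      have := card_symmDiff_le (Z ∆ seg T p₀ p q) (Z ∆ seg T p₀ p' q') M'
      have : ((Z ∆ seg T p₀ p' q') ∆ M').card ≤ edit := by rwa [symmDiff_comm]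
      simp only [edit] at *
      omega
    have hs0 : seg T p₀ t₀ t₀ = ⊥ := by simp [seg]
    have hniceZ : Nice d G G' T Z :=
      hNiceAt (p := t₀) (q := t₀) (by omega) le_rfl (by omega) (by omega) hZ hZ'
        (by rw [hs0, symmDiff_bot, symmDiff_self]; simp [edit])
        (by rw [hs0, symmDiff_bot, symmDiff_self]; simp [edit])
    have hP0 : P 0 0 := by
      intro M N hM hN e1 e2
      refine hreach.tail ⟨hniceZ, hNiceAt (p := t₀ - 0) (q := t₀ + 0 + 1) (by omega) (by omega)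
        (by omega) (by omega) hM hN e1 e2, ?_⟩
      exact hstepcard (p := t₀) (q := t₀) (p' := t₀ - 0) (q' := t₀ + 0 + 1) (by omega) (by omega)
        (by omega) (by omega) (by rw [hs0, symmDiff_bot, symmDiff_self]; simp [edit]) e1
    have hPend : P (m - 1) (k - 1) := by
      refine climb (fun i => g (t₀ + i)) (fun j => g (t₀ + L - j)) m k (by omega) (by omega)
        (by simp [hper]) (by congr 1; omega) ?_ ?_ P hP0 ?_
      · intro i hi
        refine ⟨?_, hmax' _ (by omega)⟩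
        show g (t₀ + m) ≤ g (t₀ + i)
        rw [show t₀ + m = t₁ by omega]
        exact hmin' _ (by omega) (by omega)
      · intro j hj
        refine ⟨?_, ?_⟩
        · show g (t₀ + L - k) ≤ g (t₀ + L - j)
          rw [show t₀ + L - k = t₁ by omega]
          exact hmin' _ (by omega) (by omega)
        · show g (t₀ + L - j) ≤ g (t₀ + L - 0)
          rw [Nat.sub_zero, hper]
          exact hmax' _ (by omega)
      · intro i j i' j' hi hj hi' hj' hadj hmeet hmeet' hPij M' N' hM' hN' e1' e2'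
        have hmeetPQ : Meet (g (t₀ - j - 1)) (g (t₀ - j - 1 + 1)) (g (t₀ + i + 1 - 1))
            (g (t₀ + i + 1 - 1 + 1)) := by
          have a1 : g (t₀ + L - j) = g (t₀ - j - 1 + 1) := by
            rw [← hper (t₀ - j - 1 + 1)]; congr 1; omega
          have a2 : g (t₀ + L - (j + 1)) = g (t₀ - j - 1) := by
            rw [← hper (t₀ - j - 1)]; congr 1; omega
          simp only [Meet, a1, a2] at hmeet
          simp only [Meet, Nat.add_sub_cancel]
          rw [min_comm (g (t₀ - j - 1)), max_comm (g (t₀ - j - 1))]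
          exact ⟨hmeet.2, hmeet.1⟩
        obtain ⟨M, N, hM, hN, e1, e2⟩ := near_pair C hZ hZ' hp hpar hfull hfull'
          (i := t₀ - j - 1) (j := t₀ + i + 1 - 1) (p := t₀ - j) (q := t₀ + i + 1) (by omega)
          (by omega) (by omega) ⟨rfl, rfl⟩ hmeetPQ
        refine (hPij M N hM hN e1 e2).tail ⟨hNiceAt (by omega) (by omega) (by omega) (by omega)
          hM hN e1 e2, hNiceAt (by omega) (by omega) (by omega) (by omega) hM' hN' e1' e2', ?_⟩
        exact hstepcard (by omega) (by omega) (by omega) (by omega) e1 e1'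
    rw [← hZcyc]
    have e0 : (cyc T p₀ ∆ seg T p₀ (t₀ - (k - 1)) (t₀ + (m - 1) + 1)).card ≤ edit := by
      rw [← seg_full p₀ (t₀ - (k - 1))]
      refine le_trans (seg_diff p₀ (by omega) (by omega) (by omega) (by omega)) ?_
      simp [edit]
    refine hPend _ ((Z ∆ cyc T p₀) ∆ H) hfull hfull' ?_ ?_
    · rwa [symmDiff_symmDiff_symmDiff_comm, symmDiff_self, bot_symmDiff]
    · rwa [symmDiff_symmDiff_symmDiff_comm, symmDiff_self, symmDiff_bot,
        symmDiff_symmDiff_symmDiff_comm, symmDiff_self, bot_symmDiff]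

end Vale.Agent.P335
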