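import Mathlib
import Vale.Agent.P335.Defs
import Vale.Agent.P335.CDefs
import Vale.Agent.P335.Paths
import Vale.Agent.P335.Pairing
import Vale.Agent.P335.Jumps
import Vale.Agent.P335.Encoding
import Vale.Agent.P335.Literal

/-!
Assembly of the modules.
-/

open Finset
open scoped Classical

namespace Vale.Agent.P335

lemma varianceFromJumps : VarianceFromJumps := encodingBound pathsExist pairingFacts

lemma poincare_poly : ∃ (C : ℝ) (k : ℕ), ∀ n : ℕ, 4 ≤ n → ∀ d : Fin n → ℕ,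
    Poincare d (C * (n : ℝ) ^ k) := by
  obtain ⟨D, C₁, k₁, h₁⟩ := varianceFromJumps
  obtain ⟨C₂, k₂, h₂⟩ := jumpsFromSwitches D
  refine ⟨max C₁ 0 * C₂, k₁ + k₂, fun n hn d f => ?_⟩
  refine (h₁ n hn d f).trans ?_
  have hJ : 0 ≤ ∑ G : Omega d, ∑ H : Omega d,
      (if dist G.1 H.1 ≤ D then (f G - f H) ^ 2 else 0) :=
    sum_nonneg fun G _ => sum_nonneg fun H _ => by split_ifs <;> positivity
  have hN : (0 : ℝ) ≤ (n : ℝ) ^ k₁ * (Fintype.card (Omega d) : ℝ) := by positivity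
  calc C₁ * (n : ℝ) ^ k₁ * (Fintype.card (Omega d) : ℝ) * ∑ G : Omega d, ∑ H : Omega d,
        (if dist G.1 H.1 ≤ D then (f G - f H) ^ 2 else 0)
      ≤ max C₁ 0 * (n : ℝ) ^ k₁ * (Fintype.card (Omega d) : ℝ) *
          ∑ G : Omega d, ∑ H : Omega d,
            (if dist G.1 H.1 ≤ D then (f G - f H) ^ 2 else 0) := by
        gcongr
        exact le_max_left _ _
    _ ≤ max C₁ 0 * (n : ℝ) ^ k₁ * (Fintype.card (Omega d) : ℝ) *
          (C₂ * (n : ℝ) ^ k₂ * energy d f) := by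
        refine mul_le_mul_of_nonneg_left (h₂ n hn d f) ?_
        rw [mul_assoc]
        exact mul_nonneg (le_max_right _ _) hN
    _ = _ := by rw [pow_add]; ring

/-- From polynomial mixing of the quadruple form to natural-number bounds for the literal chain. -/
lemma literal_bound
    (h : ∃ (C : ℝ) (k : ℕ), ∀ n : ℕ, 4 ≤ n → ∀ d : Fin n → ℕ,
      ∃ t : ℕ, (t : ℝ) ≤ C * (n : ℝ) ^ k ∧ MixedBy d t) :
    ∃ C k : ℕ, ∀ n : ℕ, 4 ≤ n → ∀ d : Fin n → ℕ,
      (∃ t ≤ C * n ^ k, ∀ G : Omega d, (1 / 2) * ∑ H : Omega d,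
        |(switchChain d ^ t) G H - 1 / (Fintype.card (Omega d) : ℝ)| ≤ 1 / 4) ∧
      mixingTime d ≤ C * n ^ k := by
  obtain ⟨C, k, h⟩ := h
  refine ⟨⌈C⌉₊, k, fun n hn d => ?_⟩
  obtain ⟨t, ht, hmix⟩ := h n hn d
  have hle : t ≤ ⌈C⌉₊ * n ^ k := by
    have h1 : (t : ℝ) ≤ ((⌈C⌉₊ * n ^ k : ℕ) : ℝ) := by
      push_cast
      exact ht.trans (mul_le_mul_of_nonneg_right (Nat.le_ceil C) (by positivity))
    exact_mod_cast h1
  have hm : ∀ G : Omega d, (1 / 2) * ∑ H : Omega d,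
      |(switchChain d ^ t) G H - 1 / (Fintype.card (Omega d) : ℝ)| ≤ 1 / 4 := by
    intro G
    rw [switchChain_eq_P d hn]
    exact hmix G
  exact ⟨⟨t, hle, hm⟩, le_trans (Nat.sInf_le hm) hle⟩

end Vale.Agent.P335
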