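import Mathlib
import Vale.Agent.P335.Defs
import Vale.Agent.P335.Jumps

/-!
Module A: a polynomial Poincaré constant gives a polynomial mixing time.
-/

open scoped Classical

namespace Vale.Agent.P335.Mixing

open Finset

variable {n : ℕ} {d : Fin n → ℕ}

/-- The number of ordered quadruples moving `G` to `H`. -/
noncomputable def cnt (G H : Omega d) : ℕ :=
  (univ.filter fun x : Fin 4 ↪ Fin n => move G.1 x = H.1).card

theorem P_eq (G H : Omega d) : P d G H = (if G = H then (1 / 2 : ℝ) else 0) +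
    (1 / 2) * (cnt G H : ℝ) / (Fintype.card (Fin 4 ↪ Fin n) : ℝ) := rfl

theorem card_quad_pos (hn : 4 ≤ n) : (0 : ℝ) < Fintype.card (Fin 4 ↪ Fin n) := by
  exact_mod_cast Fintype.card_pos_iff.2 ⟨Fin.castLEEmb hn⟩

theorem sum_cnt (G : Omega d) : ∑ H : Omega d, cnt G H = Fintype.card (Fin 4 ↪ Fin n) := by
  let φ : (Fin 4 ↪ Fin n) → Omega d := fun x => ⟨move G.1 x, Jumps.move_mem G x⟩
  have h := card_eq_sum_card_fiberwise (f := φ) (s := (univ : Finset (Fin 4 ↪ Fin n)))
    (t := (univ : Finset (Omega d))) (fun x _ => mem_univ _)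
  rw [← card_univ, h]
  refine Finset.sum_congr (by convert rfl) fun H _ => ?_
  rw [cnt]
  congr 1
  ext x
  simp only [mem_filter, mem_univ, true_and, φ]
  exact ⟨fun h => Subtype.ext h, fun h => congrArg Subtype.val h⟩

/-- The permutation turning a quadruple into the quadruple of the reverse switch. -/
def swapMid : Equiv.Perm (Fin 4) := Equiv.swap 1 2

theorem move_rev {G H : Omega d} {x : Fin 4 ↪ Fin n} (h : move G.1 x = H.1) (hne : G ≠ H) :
    move H.1 (swapMid.toEmbedding.trans x) = G.1 := by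
  set y := swapMid.toEmbedding.trans x with hy
  have e0 : y 0 = x 0 := rfl
  have e1 : y 1 = x 2 := rfl
  have e2 : y 2 = x 1 := rfl
  have e3 : y 3 = x 3 := rfl
  by_cases hx : G.1.Adj (x 0) (x 1) ∧ G.1.Adj (x 2) (x 3) ∧ ¬ G.1.Adj (x 0) (x 2) ∧
      ¬ G.1.Adj (x 1) (x 3)
  · have hm := Jumps.move_adj hx
    rw [h] at hm
    have ne : ∀ i j : Fin 4, i ≠ j → x i ≠ x j := fun i j hij => x.injective.ne hij
    have n01 := ne 0 1 (by decide)
    have n02 := ne 0 2 (by decide)
    have n03 := ne 0 3 (by decide)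
    have n12 := ne 1 2 (by decide)
    have n13 := ne 1 3 (by decide)
    have n23 := ne 2 3 (by decide)
    obtain ⟨h01, h23, h02, h13⟩ := hx
    have p02 : s(x 0, x 2) ≠ s(x 0, x 1) ∧ s(x 0, x 2) ≠ s(x 2, x 3) := by
      simp [n01, n02, n02.symm, n12.symm, n03, n23]
    have p13 : s(x 1, x 3) ≠ s(x 0, x 1) ∧ s(x 1, x 3) ≠ s(x 2, x 3) := by
      simp [n01.symm, n03.symm, n12, n13, n13.symm]
    have hy' : H.1.Adj (y 0) (y 1) ∧ H.1.Adj (y 2) (y 3) ∧ ¬ H.1.Adj (y 0) (y 2) ∧
        ¬ H.1.Adj (y 1) (y 3) := by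
      simp only [e0, e1, e2, e3, hm]
      refine ⟨⟨n02, ?_⟩, ⟨n13, ?_⟩,
        fun h => h.2.elim (fun h' => h'.2.1 rfl)
          (fun h' => h'.elim (fun h'' => p02.1 h''.symm) (fun h'' => p13.1 h''.symm)),
        fun h => h.2.elim (fun h' => h'.2.2 rfl)
          (fun h' => h'.elim (fun h'' => p02.2 h''.symm) (fun h'' => p13.2 h''.symm))⟩ <;> simp
    ext u v
    rw [Jumps.move_adj hy']
    simp only [e0, e1, e2, e3, hm]
    have hne' : G.1.Adj u v → u ≠ v := fun h => h.ne
    have ha : s(u, v) = s(x 0, x 1) → G.1.Adj u v := fun h => by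
      rw [← SimpleGraph.mem_edgeSet, h]; exact h01
    have hb : s(u, v) = s(x 2, x 3) → G.1.Adj u v := fun h => by
      rw [← SimpleGraph.mem_edgeSet, h]; exact h23
    have hc : s(u, v) = s(x 0, x 2) → ¬ G.1.Adj u v := fun h => by
      rw [← SimpleGraph.mem_edgeSet, h]; exact h02
    have hq : s(u, v) = s(x 1, x 3) → ¬ G.1.Adj u v := fun h => by
      rw [← SimpleGraph.mem_edgeSet, h]; exact h13
    tauto
  · rw [move, if_neg hx] at h
    exact absurd (Subtype.ext h) hne

theorem cnt_le (G H : Omega d) (hne : G ≠ H) : cnt G H ≤ cnt H G := by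
  unfold cnt
  refine card_le_card_of_injOn (fun x => swapMid.toEmbedding.trans x) (fun x hx => ?_)
    (fun x _ y _ hxy => ?_)
  · simp only [coe_filter, Set.mem_ofPred_eq, mem_univ, true_and] at hx ⊢
    exact move_rev hx hne
  · refine Function.Embedding.ext fun i => ?_
    have := DFunLike.congr_fun hxy (swapMid.symm i)
    simpa using this

theorem P_symm (G H : Omega d) : P d G H = P d H G := by
  rcases eq_or_ne G H with rfl | hne
  · rfl
  · rw [P_eq, P_eq, if_neg hne, if_neg hne.symm,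
      le_antisymm (cnt_le G H hne) (cnt_le H G hne.symm)]

theorem P_row (hn : 4 ≤ n) (G : Omega d) : ∑ H : Omega d, P d G H = 1 := by
  simp only [P_eq, sum_add_distrib, sum_ite_eq, mem_univ, if_true, ← sum_div, ← mul_sum]
  rw [← Nat.cast_sum, sum_cnt, mul_div_assoc, div_self (card_quad_pos hn).ne']
  norm_num

/-- The non-lazy part of the chain. -/
noncomputable def Q (G H : Omega d) : ℝ :=
  (cnt G H : ℝ) / (Fintype.card (Fin 4 ↪ Fin n) : ℝ)

theorem Q_nonneg (G H : Omega d) : 0 ≤ Q G H := by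
  unfold Q
  positivity

theorem Q_row (hn : 4 ≤ n) (G : Omega d) : ∑ H : Omega d, Q G H = 1 := by
  simp only [Q, ← sum_div]
  rw [← Nat.cast_sum, sum_cnt, div_self (card_quad_pos hn).ne']

theorem Q_symm (G H : Omega d) : Q G H = Q H G := by
  rcases eq_or_ne G H with rfl | hne
  · rfl
  · rw [Q, Q, le_antisymm (cnt_le G H hne) (cnt_le H G hne.symm)]

theorem P_mul (v : Omega d → ℝ) (G : Omega d) :
    ∑ H, P d G H * v H = 1 / 2 * v G + 1 / 2 * ∑ H, Q G H * v H := by
  have h : ∀ H, P d G H * v H =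
      (if G = H then 1 / 2 * v H else 0) + 1 / 2 * (Q G H * v H) := by
    intro H
    rw [P_eq, Q]
    split_ifs <;> ring
  simp only [h, sum_add_distrib, sum_ite_eq, mem_univ, if_true, ← mul_sum]

theorem Q_contract (hn : 4 ≤ n) (v : Omega d → ℝ) :
    ∑ G : Omega d, (∑ H, Q G H * v H) ^ 2 ≤ ∑ G : Omega d, v G ^ 2 := by
  calc ∑ G : Omega d, (∑ H, Q G H * v H) ^ 2
      ≤ ∑ G : Omega d, ∑ H, Q G H * v H ^ 2 := by
        refine sum_le_sum fun G _ => ?_
        refine le_trans (sum_sq_le_sum_mul_sum_of_sq_le_mul univ (f := fun H => Q G H)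
          (g := fun H => Q G H * v H ^ 2) (fun H _ => Q_nonneg G H)
          (fun H _ => mul_nonneg (Q_nonneg G H) (sq_nonneg _)) (fun H _ => le_of_eq (by ring))) ?_
        rw [Q_row hn G, one_mul]
    _ = ∑ H : Omega d, v H ^ 2 := by
        rw [sum_comm]
        refine sum_congr rfl fun H _ => ?_
        rw [← sum_mul]
        simp only [fun G => Q_symm G H, Q_row hn H, one_mul]

/-- The squared norm of `P v` is at most `⟨v, P v⟩` (laziness). -/
theorem lazy_sq (hn : 4 ≤ n) (v : Omega d → ℝ) :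
    ∑ G : Omega d, (∑ H, P d G H * v H) ^ 2 ≤ ∑ G : Omega d, v G * ∑ H, P d G H * v H := by
  simp only [P_mul]
  have h := Q_contract hn v
  have e1 : ∀ G : Omega d, (1 / 2 * v G + 1 / 2 * ∑ H, Q G H * v H) ^ 2 =
      1 / 4 * v G ^ 2 + 1 / 2 * (v G * ∑ H, Q G H * v H) + 1 / 4 * (∑ H, Q G H * v H) ^ 2 :=
    fun G => by ring
  have e2 : ∀ G : Omega d, v G * (1 / 2 * v G + 1 / 2 * ∑ H, Q G H * v H) =
      1 / 2 * v G ^ 2 + 1 / 2 * (v G * ∑ H, Q G H * v H) :=
    fun G => by ring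
  simp only [e1, e2, sum_add_distrib, ← mul_sum]
  linarith

theorem energy_eq (hn : 4 ≤ n) (v : Omega d → ℝ) :
    energy d v = 2 * ∑ G : Omega d, v G ^ 2 - 2 * ∑ G : Omega d, v G * ∑ H, P d G H * v H := by
  have e : ∀ G H : Omega d, P d G H * (v G - v H) ^ 2 =
      v G ^ 2 * P d G H + P d G H * v H ^ 2 - 2 * (v G * (P d G H * v H)) := fun G H => by ring
  have h2 : ∑ G : Omega d, ∑ H, P d G H * v H ^ 2 = ∑ H : Omega d, v H ^ 2 := by
    rw [sum_comm]
    refine sum_congr rfl fun H _ => ?_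
    rw [← sum_mul]
    simp only [fun G => P_symm G H, P_row hn H, one_mul]
  simp only [energy, e, sum_sub_distrib, sum_add_distrib, ← mul_sum, P_row hn, mul_one]
  rw [h2]
  ring

theorem contract (hn : 4 ≤ n) {K : ℝ} (hK : 1 ≤ K) (hP : Poincare d K) (v : Omega d → ℝ)
    (hv : ∑ G, v G = 0) :
    ∑ G : Omega d, (∑ H, P d G H * v H) ^ 2 ≤ (1 - 1 / K) * ∑ G : Omega d, v G ^ 2 := by
  rcases isEmpty_or_nonempty (Omega d) with he | hne
  · simp
  have h := hP v
  have e : ∑ G : Omega d, ∑ H : Omega d, (v G - v H) ^ 2 =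
      2 * (Fintype.card (Omega d) : ℝ) * ∑ G : Omega d, v G ^ 2 := by
    simp only [sub_sq, sum_add_distrib, sum_sub_distrib, sum_const, card_univ, nsmul_eq_mul,
      ← mul_sum, ← sum_mul]
    rw [hv]
    ring
  rw [e, energy_eq hn] at h
  have hN : (0 : ℝ) < Fintype.card (Omega d) := by exact_mod_cast Fintype.card_pos
  have hl := lazy_sq hn v
  set S := ∑ G : Omega d, v G ^ 2
  set I := ∑ G : Omega d, v G * ∑ H, P d G H * v H
  have h1 : S ≤ K * (S - I) := by
    refine le_of_mul_le_mul_left ?_ (mul_pos two_pos hN)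
    calc 2 * (Fintype.card (Omega d) : ℝ) * S ≤ _ := h
      _ = 2 * (Fintype.card (Omega d) : ℝ) * (K * (S - I)) := by ring
  refine hl.trans ?_
  have h2 : (1 - 1 / K) * S = (K * S - S) / K := by field_simp
  rw [h2, le_div_iff₀ (by linarith)]
  linarith

/-- `P^t (G, ·)` minus the uniform distribution. -/
noncomputable def err (d : Fin n → ℕ) (t : ℕ) (G H : Omega d) : ℝ :=
  (P d ^ t) G H - 1 / (Fintype.card (Omega d) : ℝ)

theorem pow_row (hn : 4 ≤ n) (t : ℕ) (G : Omega d) : ∑ H, (P d ^ t) G H = 1 := by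
  induction t with
  | zero => simp [Matrix.one_apply]
  | succ t ih =>
    simp only [pow_succ, Matrix.mul_apply]
    rw [sum_comm]
    simp only [← mul_sum, P_row hn, mul_one, ih]

theorem err_sum (hn : 4 ≤ n) (t : ℕ) (G : Omega d) : ∑ H, err d t G H = 0 := by
  have : Nonempty (Omega d) := ⟨G⟩
  simp only [err, sum_sub_distrib, pow_row hn, sum_const, card_univ, nsmul_eq_mul]
  field_simp
  ring

theorem err_succ (hn : 4 ≤ n) (t : ℕ) (G H : Omega d) :
    err d (t + 1) G H = ∑ X, P d H X * err d t G X := by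
  simp only [err, mul_sub, sum_sub_distrib, pow_succ, Matrix.mul_apply, ← sum_mul, P_row hn,
    one_mul]
  congr 1
  exact sum_congr rfl fun X _ => by rw [P_symm X H, mul_comm]

theorem err_decay (hn : 4 ≤ n) {K : ℝ} (hK : 1 ≤ K) (hP : Poincare d K) (G : Omega d) (t : ℕ) :
    ∑ H, err d t G H ^ 2 ≤ (1 - 1 / K) ^ t := by
  induction t with
  | zero =>
    have : Nonempty (Omega d) := ⟨G⟩
    have hN : (0 : ℝ) < Fintype.card (Omega d) := by exact_mod_cast Fintype.card_pos
    simp only [err, pow_zero, Matrix.one_apply, sub_sq, sum_add_distrib, sum_sub_distrib,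
      sum_const, card_univ, nsmul_eq_mul]
    simp [Finset.sum_ite_eq]
    field_simp
    linarith
  | succ t ih =>
    simp only [err_succ hn]
    refine (contract hn hK hP _ (err_sum hn t G)).trans ?_
    rw [pow_succ']
    refine mul_le_mul_of_nonneg_left ih ?_
    rw [sub_nonneg, div_le_one (by linarith)]
    exact hK

theorem card_omega_le (d : Fin n → ℕ) : Fintype.card (Omega d) ≤ 2 ^ (n ^ 2) := by
  refine (Fintype.card_le_of_injective
    (fun (G : Omega d) (u v : Fin n) => decide (G.1.Adj u v)) fun G H h => ?_).trans (le_of_eq ?_)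
  · refine Subtype.ext (SimpleGraph.ext ?_)
    funext u v
    simpa using congrFun (congrFun h u) v
  · simp [← pow_mul, sq]

theorem mixed (hn : 4 ≤ n) {K : ℝ} (hK : 1 ≤ K) (hP : Poincare d K) {t : ℕ}
    (ht : K * ((n : ℝ) ^ 2 + 2) ≤ t) : MixedBy d t := by
  intro G
  have hd := err_decay hn hK hP G t
  have hN : (Fintype.card (Omega d) : ℝ) ≤ 2 ^ (n ^ 2) := by exact_mod_cast card_omega_le d
  have hK0 : 0 < K := by linarith
  have h1 : (1 - 1 / K) ^ t ≤ (1 / 2 : ℝ) ^ (n ^ 2 + 2) := by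
    refine (pow_le_pow_left₀ (by rw [sub_nonneg, div_le_one hK0]; exact hK)
      (Real.one_sub_le_exp_neg _) t).trans ?_
    rw [← Real.exp_nat_mul]
    calc Real.exp (t * -(1 / K)) ≤ Real.exp ((n ^ 2 + 2 : ℕ) * -1) := by
          refine Real.exp_le_exp.2 ?_
          rw [mul_neg, mul_neg, neg_le_neg_iff, mul_one_div, le_div_iff₀ hK0]
          push_cast
          linarith
      _ = Real.exp (-1) ^ (n ^ 2 + 2) := Real.exp_nat_mul _ _
      _ ≤ _ := by
          refine pow_le_pow_left₀ (Real.exp_nonneg _) ?_ _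
          rw [Real.exp_neg, one_div]
          exact inv_anti₀ two_pos (by linarith [Real.add_one_le_exp (1 : ℝ)])
  have h2 : (Fintype.card (Omega d) : ℝ) * ∑ H, err d t G H ^ 2 ≤ (1 / 2) ^ 2 := by
    calc _ ≤ (2 : ℝ) ^ (n ^ 2) * (1 / 2) ^ (n ^ 2 + 2) :=
          mul_le_mul hN (hd.trans h1) (sum_nonneg fun _ _ => sq_nonneg _) (by positivity)
      _ = _ := by rw [pow_add, ← mul_assoc, ← mul_pow]; norm_num
  have h3 : ∑ H, |err d t G H| ≤ 1 / 2 := by
    refine le_of_pow_le_pow_left₀ two_ne_zero (by norm_num) (le_trans ?_ h2)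
    refine (sq_sum_le_card_mul_sum_sq).trans (le_of_eq ?_)
    simp [sq_abs]
  show (1 / 2 : ℝ) * ∑ H, |err d t G H| ≤ 1 / 4
  linarith

theorem mixingFromPoincare : MixingFromPoincare := by
  intro C k hP
  refine ⟨4 * max C 1, k + 2, fun n hn d => ?_⟩
  have hn1 : (1 : ℝ) ≤ n := by exact_mod_cast le_trans (by norm_num) hn
  set K : ℝ := max C 1 * (n : ℝ) ^ k with hKdef
  have hK : 1 ≤ K := one_le_mul_of_one_le_of_one_le (le_max_right _ _) (one_le_pow₀ hn1)
  have hP' : Poincare d K := fun f => by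
    refine (hP n hn d f).trans ?_
    refine mul_le_mul_of_nonneg_right ?_ (Jumps.energy_nonneg f)
    refine mul_le_mul_of_nonneg_right ?_ (Nat.cast_nonneg _)
    exact mul_le_mul_of_nonneg_right (le_max_left _ _) (by positivity)
  refine ⟨⌈K * ((n : ℝ) ^ 2 + 2)⌉₊, ?_, mixed hn hK hP' (Nat.le_ceil _)⟩
  refine (Nat.ceil_lt_add_one (by positivity)).le.trans ?_
  have h2 : (4 : ℝ) ≤ (n : ℝ) ^ 2 := by
    have : (4 : ℝ) ≤ n := by exact_mod_cast hn
    nlinarith
  calc K * ((n : ℝ) ^ 2 + 2) + 1 ≤ K * ((n : ℝ) ^ 2 + 2) + K := by linarith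
    _ ≤ K * (4 * (n : ℝ) ^ 2) := by nlinarith
    _ = _ := by rw [hKdef, pow_add]; ring

end Vale.Agent.P335.Mixing

namespace Vale.Agent.P335

/-- Module A. -/
theorem mixingFromPoincare : MixingFromPoincare := Mixing.mixingFromPoincare

end Vale.Agent.P335
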